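import Mathlib.Algebra.Field.Subfield.Basic
import Mathlib.GroupTheory.Index
import Mathlib.GroupTheory.Coset.Card
import Mathlib.SetTheory.Cardinal.Finite
import Mathlib.Tactic

/-!
P180: finite fields with an involution: norm and trace.
-/

set_option linter.all false

namespace Vale.Agent.P180.R2.H589.Un

open Subgroup

variable {K : Type*} [Field K]

/-- involutions -/
structure Iv (θ : K ≃+* K) : Prop where
  inv : ∀ c, θ (θ c) = c
  ne : ∃ c, θ c ≠ c

/-- the fixed field -/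
def FF (θ : K ≃+* K) : Subfield K := (θ : K →+* K).eqLocusField (RingHom.id K)

theorem mem_FF {θ : K ≃+* K} {c : K} : c ∈ FF θ ↔ θ c = c := Iff.rfl

variable {θ : K ≃+* K}

theorem FF_coe (s : FF θ) : θ (s : K) = s := s.2

section

variable (hθ : Iv θ)

include hθ

theorem tr_fix (c : K) : θ (c + θ c) = c + θ c := by
  rw [map_add, hθ.inv, add_comm]

theorem nm_fix (c : K) : θ (c * θ c) = c * θ c := by
  rw [map_mul, hθ.inv, mul_comm]

theorem exists_tr_one : ∃ t : K, t + θ t = 1 := by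
  have h1 : ∃ c : K, c + θ c ≠ 0 := by
    by_contra hcon
    push Not at hcon
    have h2 : (1 : K) + 1 = 0 := by
      have := hcon 1
      rwa [map_one] at this
    obtain ⟨c, hc⟩ := hθ.ne
    apply hc
    have h3 := hcon c
    have h4 : c + c = 0 := by
      have : c + c = (1 + 1) * c := by ring
      rw [this, h2, zero_mul]
    have h5 : c + θ c = c + c := by rw [h3, h4]
    exact add_left_cancel h5
  obtain ⟨c, hc⟩ := h1
  refine ⟨c / (c + θ c), ?_⟩
  rw [map_div₀, tr_fix hθ, ← add_div, div_self hc]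

theorem exists_tr {a : K} (ha : θ a = a) : ∃ t : K, t + θ t = a := by
  obtain ⟨t, ht⟩ := exists_tr_one hθ
  refine ⟨a * t, ?_⟩
  rw [map_mul, ha, ← mul_add, ht, mul_one]

/-- the trace form is nondegenerate -/
theorem tr_nd {z : K} (h : ∀ c, c * z + θ (c * z) = 0) : z = 0 := by
  by_contra hz
  obtain ⟨t, ht⟩ := exists_tr_one hθ
  have h1 := h (t / z)
  rw [div_mul_cancel₀ t hz, ht] at h1
  exact one_ne_zero h1

/-- elements of trace zero -/
theorem exists_dl : ∃ d : K, d ≠ 0 ∧ θ d = -d := by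
  obtain ⟨c, hc⟩ := hθ.ne
  refine ⟨c - θ c, fun h => hc (sub_eq_zero.mp h).symm, ?_⟩
  rw [map_sub, hθ.inv, neg_sub]

omit hθ in
theorem eq_smul_dl {d : K} (hd : d ≠ 0) (hd' : θ d = -d) {x : K} (hx : θ x = -x) :
    ∃ s : FF θ, x = s * d := by
  refine ⟨⟨x / d, ?_⟩, ?_⟩
  · rw [mem_FF, map_div₀, hx, hd', neg_div_neg_eq]
  · exact (div_mul_cancel₀ x hd).symm

/-- Hilbert 90 -/
theorem hilbert90 {x : K} (hx : x * θ x = 1) : ∃ y : K, y ≠ 0 ∧ x * θ y = y := by
  have h1 : ∃ z : K, z + x * θ z ≠ 0 := by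
    by_contra hcon
    push Not at hcon
    have h2 : x = -1 := by
      have := hcon 1
      rw [map_one, mul_one] at this
      exact eq_neg_of_add_eq_zero_right this
    obtain ⟨c, hc⟩ := hθ.ne
    apply hc
    have h3 := hcon c
    rw [h2, neg_one_mul] at h3
    exact (sub_eq_zero.mp (by rw [sub_eq_add_neg]; exact h3)).symm
  obtain ⟨z, hz⟩ := h1
  refine ⟨z + x * θ z, hz, ?_⟩
  rw [map_add, map_mul, hθ.inv, mul_add, ← mul_assoc, hx, one_mul, add_comm]

/-- the norm -/
def nmU (hθ : Iv θ) : Kˣ →* Kˣ where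
  toFun u := u * Units.map (θ : K →* K) u
  map_one' := by rw [map_one, one_mul]
  map_mul' u v := by rw [map_mul]; exact mul_mul_mul_comm _ _ _ _

/-- the twisted map -/
def twU (hθ : Iv θ) : Kˣ →* Kˣ where
  toFun u := u * (Units.map (θ : K →* K) u)⁻¹
  map_one' := by rw [map_one, inv_one, one_mul]
  map_mul' u v := by rw [map_mul, mul_inv]; exact mul_mul_mul_comm _ _ _ _

theorem nmU_val (u : Kˣ) : ((nmU hθ u : Kˣ) : K) = u * θ u := rfl

theorem twU_val (u : Kˣ) : ((twU hθ u : Kˣ) : K) = u * (θ (u : K))⁻¹ := by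
  change (u : K) * ((Units.map (θ : K →* K) u)⁻¹ : Kˣ) = _
  rw [Units.val_inv_eq_inv_val]
  rfl

theorem mem_ker_nmU {u : Kˣ} : u ∈ (nmU hθ).ker ↔ (u : K) * θ u = 1 := by
  rw [MonoidHom.mem_ker, Units.ext_iff, nmU_val, Units.val_one]

theorem mem_ker_twU {u : Kˣ} : u ∈ (twU hθ).ker ↔ θ (u : K) = u := by
  rw [MonoidHom.mem_ker, Units.ext_iff, twU_val, Units.val_one, mul_inv_eq_one₀]
  · exact eq_comm
  · exact (map_ne_zero θ).mpr u.ne_zero

theorem ker_nmU : (nmU hθ).ker = (twU hθ).range := by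
  ext u
  rw [mem_ker_nmU]
  constructor
  · intro h
    obtain ⟨y, hy, hxy⟩ := hilbert90 hθ h
    refine ⟨Units.mk0 y hy, Units.ext ?_⟩
    rw [twU_val, Units.val_mk0, mul_inv_eq_iff_eq_mul₀ ((map_ne_zero θ).mpr hy)]
    exact hxy.symm
  · rintro ⟨y, rfl⟩
    have hy := y.ne_zero
    have hy' : θ (y : K) ≠ 0 := (map_ne_zero θ).mpr hy
    rw [twU_val, map_mul, map_inv₀, hθ.inv]
    field_simp

theorem range_nmU [Finite K] : (nmU hθ).range = (twU hθ).ker := by
  have hle : (nmU hθ).range ≤ (twU hθ).ker := by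
    rintro _ ⟨u, rfl⟩
    rw [mem_ker_twU, nmU_val]
    exact nm_fix hθ _
  have h1 : Nat.card (nmU hθ).ker * Nat.card (nmU hθ).range = Nat.card Kˣ := by
    rw [← index_ker, card_mul_index]
  have h2 : Nat.card (twU hθ).ker * Nat.card (twU hθ).range = Nat.card Kˣ := by
    rw [← index_ker, card_mul_index]
  rw [ker_nmU hθ, mul_comm] at h1
  have h3 : Nat.card (nmU hθ).range = Nat.card (twU hθ).ker := by
    refine Nat.eq_of_mul_eq_mul_right (Nat.card_pos (α := (twU hθ).range)) ?_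
    rw [h1, h2]
  exact Subgroup.eq_of_le_of_card_ge hle h3.ge

/-- **The norm is surjective.** -/
theorem exists_nm [Finite K] {a : K} (ha : θ a = a) : ∃ x : K, x * θ x = a := by
  by_cases h0 : a = 0
  · exact ⟨0, by rw [h0, zero_mul]⟩
  · have h1 : Units.mk0 a h0 ∈ (nmU hθ).range := by
      rw [range_nmU hθ, mem_ker_twU]
      exact ha
    obtain ⟨x, hx⟩ := h1
    exact ⟨x, congrArg Units.val hx⟩

theorem exists_nm_ne [Finite K] {a : K} (ha : θ a = a) (h0 : a ≠ 0) :
    ∃ x : K, x ≠ 0 ∧ x * θ x = a := by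
  obtain ⟨x, hx⟩ := exists_nm hθ ha
  refine ⟨x, ?_, hx⟩
  rintro rfl
  rw [zero_mul] at hx
  exact h0 hx.symm

/-- `K` is a vector space of dimension two over the fixed field -/
theorem card_sq [Finite K] : Nat.card K = Nat.card (FF θ) ^ 2 := by
  obtain ⟨w, hw⟩ := hθ.ne
  have hw0 : w - θ w ≠ 0 := fun h => hw (sub_eq_zero.mp h).symm
  have e : (FF θ × FF θ) ≃ K := by
    refine Equiv.ofBijective (fun s => (s.1 : K) + s.2 * w) ⟨?_, ?_⟩
    · rintro ⟨a, b⟩ ⟨a', b'⟩ h
      have h' : (a : K) + b * w = a' + b' * w := h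
      have h1 := congrArg θ h'
      rw [map_add, map_add, map_mul, map_mul, FF_coe, FF_coe, FF_coe, FF_coe] at h1
      have h2 : ((b : K) - b') * (w - θ w) = 0 := by linear_combination h' - h1
      have h3 : (b : K) = b' := sub_eq_zero.mp ((mul_eq_zero.mp h2).resolve_right hw0)
      rw [h3] at h'
      have h4 : (a : K) = a' := add_right_cancel h'
      exact Prod.ext (Subtype.ext h4) (Subtype.ext h3)
    · intro c
      have hb : (c - θ c) / (w - θ w) ∈ FF θ := by
        rw [mem_FF, map_div₀, map_sub, map_sub, hθ.inv, hθ.inv, ← neg_sub c, ← neg_sub w,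
          neg_div_neg_eq]
      have ha : c - (c - θ c) / (w - θ w) * w ∈ FF θ := by
        rw [mem_FF, map_sub, map_mul, mem_FF.mp hb]
        field_simp
        ring
      refine ⟨(⟨_, ha⟩, ⟨_, hb⟩), ?_⟩
      change c - (c - θ c) / (w - θ w) * w + (c - θ c) / (w - θ w) * w = c
      ring
  rw [← Nat.card_congr e, Nat.card_prod, pow_two]

theorem card_fix [Finite K] : Nat.card (twU hθ).ker = Nat.card (FF θ) - 1 := by
  have e : (twU hθ).ker ≃ (FF θ)ˣ :=
    { toFun := fun u => Units.mk0 (⟨(u : Kˣ), (mem_ker_twU hθ).mp u.2⟩ : FF θ)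
        (fun h => (u : Kˣ).ne_zero (congrArg Subtype.val h))
      invFun := fun s => ⟨Units.mk0 ((s : FF θ) : K) (fun h => s.ne_zero (Subtype.ext h)),
        (mem_ker_twU hθ).mpr (FF_coe _)⟩
      left_inv := fun u => Subtype.ext (Units.ext rfl)
      right_inv := fun s => Units.ext rfl }
  rw [Nat.card_congr e, Nat.card_eq_card_units_add_one (FF θ), Nat.add_sub_cancel]

/-- the number of the elements of norm one -/
theorem card_nm_one [Finite K] : Nat.card (nmU hθ).ker = Nat.card (FF θ) + 1 := by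
  have h1 : Nat.card (twU hθ).ker * Nat.card (twU hθ).range = Nat.card Kˣ := by
    rw [← index_ker, card_mul_index]
  rw [← ker_nmU hθ, card_fix hθ] at h1
  have h2 := Nat.card_eq_card_units_add_one K
  rw [card_sq hθ] at h2
  have h3 : 1 < Nat.card (FF θ) := Finite.one_lt_card
  obtain ⟨q, hq⟩ : ∃ q, q + 2 = Nat.card (FF θ) := ⟨Nat.card (FF θ) - 2, by omega⟩
  rw [← hq] at h1 h2 ⊢
  have h4 : (q + 1) * Nat.card (nmU hθ).ker = (q + 1) * (q + 3) := by
    have h5 : q + 2 - 1 = q + 1 := by omega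
    rw [h5] at h1
    rw [h1]
    nlinarith
  exact Nat.eq_of_mul_eq_mul_left (by omega) h4

/-- the number of the elements of given norm -/
theorem card_nm [Finite K] {a : K} (ha : θ a = a) (h0 : a ≠ 0) :
    Nat.card {x : K // x * θ x = a} = Nat.card (FF θ) + 1 := by
  obtain ⟨x₀, hx₀, hx⟩ := exists_nm_ne hθ ha h0
  rw [← card_nm_one hθ]
  have hx₀' : θ x₀ ≠ 0 := (map_ne_zero θ).mpr hx₀
  refine Nat.card_congr
    { toFun := fun x => ⟨Units.mk0 (x.1 * x₀⁻¹) ?_, ?_⟩
      invFun := fun u => ⟨((u : Kˣ) : K) * x₀, ?_⟩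
      left_inv := ?_
      right_inv := ?_ }
  · refine mul_ne_zero ?_ (inv_ne_zero hx₀)
    intro h
    have := x.2
    rw [h, zero_mul] at this
    exact h0 this.symm
  · rw [mem_ker_nmU, Units.val_mk0, map_mul, map_inv₀]
    have := x.2
    field_simp
    rw [this, hx]
  · have := (mem_ker_nmU hθ).mp u.2
    rw [map_mul]
    linear_combination (x₀ * θ x₀) * this + hx
  · intro x
    apply Subtype.ext
    change x.1 * x₀⁻¹ * x₀ = x.1
    rw [inv_mul_cancel_right₀ hx₀]
  · intro u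
    apply Subtype.ext
    apply Units.ext
    change ((u : Kˣ) : K) * x₀ * x₀⁻¹ = _
    rw [mul_inv_cancel_right₀ hx₀]

/-- a nontrivial element of norm one -/
theorem exists_nm_one [Finite K] : ∃ z : K, z * θ z = 1 ∧ z ≠ 1 := by
  have h1 := card_nm_one hθ
  have h2 : 1 < Nat.card (nmU hθ).ker := by
    have := Nat.card_pos (α := FF θ)
    omega
  haveI := (Finite.one_lt_card_iff_nontrivial).mp h2
  obtain ⟨u, hu⟩ := exists_ne (1 : (nmU hθ).ker)
  exact ⟨(u : Kˣ), (mem_ker_nmU hθ).mp u.2, fun h => hu (Subtype.ext (Units.ext h))⟩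

end

theorem exists_sq_ne {F : Type*} [Field F] [Finite F] (hF : 3 < Nat.card F) :
    ∃ a : F, a ≠ 0 ∧ a ^ 2 ≠ 1 := by
  obtain ⟨x, hx⟩ : IsCyclic Fˣ := by infer_instance
  have h1 : orderOf x = Nat.card Fˣ := orderOf_eq_card_of_forall_mem_zpowers hx
  have h2 : Nat.card F = Nat.card Fˣ + 1 := Nat.card_eq_card_units_add_one F
  refine ⟨x, x.ne_zero, fun h => ?_⟩
  have h4 : x ^ 2 = 1 := Units.ext (by rw [Units.val_pow_eq_pow_val, h, Units.val_one])
  have h5 := orderOf_le_of_pow_eq_one (by norm_num) h4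
  omega

end Vale.Agent.P180.R2.H589.Un
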