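import Vale.Agent.P180.R2.H589.Un.Fld
import Vale.Agent.P180.R2.H589.Sp.Frm

/-!
P180: hermitian forms over finite fields: transvections, transitivity, splittings.
-/

set_option linter.all false

namespace Vale.Agent.P180.R2.H589.Un

open Subgroup Module
open Vale.Agent.P180.R2.H589.Sch
open Vale.Agent.P180.R2.H589.Sp (exists_avoid')

section Basic

variable {K V : Type*} [Field K] [AddCommGroup V] [Module K V] {θ : K ≃+* K}

/-- nondegenerate hermitian forms -/
structure Hm (θ : K ≃+* K) (h : V → V → K) : Prop where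
  addl : ∀ x y z, h (x + y) z = h x z + h y z
  sml : ∀ (c : K) x y, h (c • x) y = c * h x y
  herm : ∀ x y, h y x = θ (h x y)
  nd : ∀ x, (∀ y, h x y = 0) → x = 0

/-- the group of the isometries -/
def UG (h : V → V → K) : Subgroup (V ≃ₗ[K] V) where
  carrier := {g | ∀ x y, h (g x) (g y) = h x y}
  one_mem' := fun x y => rfl
  mul_mem' := by
    intro g k hg hk x y
    rw [LinearEquiv.mul_apply, LinearEquiv.mul_apply, hg, hk]
  inv_mem' := by
    intro g hg x y
    have h1 : ∀ z, g (g⁻¹ z) = z := g.apply_symm_apply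
    rw [← hg, h1, h1]

theorem mem_UG {h : V → V → K} {g : V ≃ₗ[K] V} : g ∈ UG h ↔ ∀ x y, h (g x) (g y) = h x y := Iff.rfl

/-- the group of the isometries of determinant one -/
noncomputable def SUG (h : V → V → K) : Subgroup (V ≃ₗ[K] V) := UG h ⊓ (LinearEquiv.det (R := K) (M := V)).ker

theorem mem_SUG {h : V → V → K} {g : V ≃ₗ[K] V} :
    g ∈ SUG h ↔ g ∈ UG h ∧ LinearEquiv.det g = 1 := Iff.rfl

variable {h : V → V → K} (hB : Hm θ h)

include hB

theorem Hm.addr (x y z : V) : h x (y + z) = h x y + h x z := by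
  rw [hB.herm (y + z) x, hB.addl, map_add, ← hB.herm, ← hB.herm]

theorem Hm.smr (c : K) (x y : V) : h x (c • y) = θ c * h x y := by
  rw [hB.herm (c • y) x, hB.sml, map_mul, ← hB.herm]

theorem Hm.zl (y : V) : h 0 y = 0 := by
  have := hB.sml 0 0 y
  rwa [zero_smul, zero_mul] at this

theorem Hm.zr (y : V) : h y 0 = 0 := by rw [hB.herm 0 y, hB.zl, map_zero]

theorem Hm.negl (x y : V) : h (-x) y = - h x y := by
  rw [← neg_one_smul K x, hB.sml, neg_one_mul]

theorem Hm.negr (x y : V) : h x (-y) = - h x y := by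
  rw [hB.herm (-y) x, hB.negl, map_neg, ← hB.herm]

theorem Hm.subl (x y z : V) : h (x - y) z = h x z - h y z := by
  rw [sub_eq_add_neg, hB.addl, hB.negl, sub_eq_add_neg]

theorem Hm.subr (x y z : V) : h x (y - z) = h x y - h x z := by
  rw [sub_eq_add_neg, hB.addr, hB.negr, sub_eq_add_neg]

theorem Hm.fix (x : V) : θ (h x x) = h x x := (hB.herm x x).symm

theorem Hm.swap {x y : V} (hxy : h x y = 0) : h y x = 0 := by rw [hB.herm x y, hxy, map_zero]

theorem Hm.swap_ne {x y : V} (hxy : h x y ≠ 0) : h y x ≠ 0 := fun h0 => hxy (hB.swap h0)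

/-- the functional `h · a` -/
def hl (hB : Hm θ h) (a : V) : Dual K V where
  toFun x := h x a
  map_add' x y := hB.addl x y a
  map_smul' c x := hB.sml c x a

omit hB in
theorem hl_apply (hB : Hm θ h) (a x : V) : hl hB a x = h x a := rfl

theorem hl_ne {a : V} (ha : a ≠ 0) : hl hB a ≠ 0 := by
  intro h0
  apply ha
  apply hB.nd
  intro y
  exact hB.swap (congrArg (fun φ : Dual K V => φ y) h0)

theorem Hm.exists_ne {x : V} (hx : x ≠ 0) : ∃ y, h x y ≠ 0 := by
  by_contra hcon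
  push Not at hcon
  exact hx (hB.nd x hcon)

theorem Hm.exists_one {x : V} (hx : x ≠ 0) : ∃ y, h x y = 1 := by
  obtain ⟨y, hy⟩ := hB.exists_ne hx
  refine ⟨θ.symm (h x y)⁻¹ • y, ?_⟩
  rw [hB.smr, θ.apply_symm_apply, inv_mul_cancel₀ hy]

/-- unitary transvections -/
def tU (hB : Hm θ h) {a : V} (ha : h a a = 0) (c : K) : V ≃ₗ[K] V :=
  LinearEquiv.transvection (f := c • hl hB a) (v := a) (by
    rw [LinearMap.smul_apply, hl_apply, ha, smul_zero])

omit hB in
theorem tU_apply (hB : Hm θ h) {a : V} (ha : h a a = 0) (c : K) (x : V) :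
    tU hB ha c x = x + (c * h x a) • a := rfl

omit hB in
theorem tU_isTv (hB : Hm θ h) {a : V} (ha : h a a = 0) (c : K) :
    IsTv (tU hB ha c) (c • hl hB a) a :=
  ⟨by rw [LinearMap.smul_apply, hl_apply, ha, smul_zero], fun x => rfl⟩

theorem tU_mem {a : V} (ha : h a a = 0) {c : K} (hc : c + θ c = 0) : tU hB ha c ∈ UG h := by
  intro x y
  rw [tU_apply, tU_apply]
  simp only [hB.addl, hB.addr, hB.sml, hB.smr, ha, map_mul]
  rw [← hB.herm y a]
  linear_combination (h x a * h a y) * hc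

theorem tU_det {a : V} (ha : h a a = 0) (c : K) : LinearEquiv.det (tU hB ha c) = 1 :=
  LinearEquiv.transvection.det_eq_one _

theorem tU_mem_SUG {a : V} (ha : h a a = 0) {c : K} (hc : c + θ c = 0) : tU hB ha c ∈ SUG h :=
  ⟨tU_mem hB ha hc, tU_det hB ha c⟩

theorem UG_iso {g : V ≃ₗ[K] V} (hg : g ∈ UG h) {a : V} (ha : h a a = 0) : h (g a) (g a) = 0 := by
  rw [mem_UG.mp hg, ha]

theorem tU_conj {g : V ≃ₗ[K] V} (hg : g ∈ UG h) {a : V} (ha : h a a = 0) (c : K) :
    g * tU hB ha c * g⁻¹ = tU hB (UG_iso hB hg ha) c := by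
  rw [mul_inv_eq_iff_eq_mul]
  apply LinearEquiv.ext
  intro x
  rw [LinearEquiv.mul_apply, LinearEquiv.mul_apply, tU_apply, tU_apply, mem_UG.mp hg, map_add,
    map_smul]

theorem smul_iso {a : V} (ha : h a a = 0) (l : K) : h (l • a) (l • a) = 0 := by
  rw [hB.sml, hB.smr, ha, mul_zero, mul_zero]

theorem tU_smul {a : V} (ha : h a a = 0) (c l : K) :
    tU hB (smul_iso hB ha l) c = tU hB ha (l * θ l * c) := by
  apply LinearEquiv.ext
  intro x
  rw [tU_apply, tU_apply, hB.smr, smul_smul]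
  congr 2
  ring

theorem tU_add {a : V} (ha : h a a = 0) (c d : K) :
    tU hB ha c * tU hB ha d = tU hB ha (c + d) := by
  apply LinearEquiv.ext
  intro x
  rw [LinearEquiv.mul_apply, tU_apply, tU_apply, tU_apply, hB.addl, hB.sml, ha]
  module

theorem tU_zero {a : V} (ha : h a a = 0) : tU hB ha 0 = 1 := by
  apply LinearEquiv.ext
  intro x
  rw [tU_apply, zero_mul, zero_smul, add_zero]
  rfl

theorem tU_inv {a : V} (ha : h a a = 0) (c : K) : (tU hB ha c)⁻¹ = tU hB ha (-c) := by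
  symm
  apply eq_inv_of_mul_eq_one_left
  rw [tU_add, neg_add_cancel, tU_zero]

omit hB in
theorem tU_pel {p : ℕ} [CharP K p] (hB : Hm θ h) {a : V} (ha : h a a = 0) (c : K) :
    Pel p (tU hB ha c) :=
  ⟨1, by rw [pow_one]; exact (tU_isTv hB ha c).pow_char⟩

/-- the subgroup generated by the transvections -/
def TG (hB : Hm θ h) : Subgroup (V ≃ₗ[K] V) :=
  closure {e | ∃ (a : V) (ha : h a a = 0) (c : K), c + θ c = 0 ∧ e = tU hB ha c}

theorem tU_mem_TG {a : V} (ha : h a a = 0) {c : K} (hc : c + θ c = 0) : tU hB ha c ∈ TG hB :=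
  subset_closure ⟨a, ha, c, hc, rfl⟩

theorem TG_le : TG hB ≤ SUG h := by
  rw [TG, closure_le]
  rintro _ ⟨a, ha, c, hc, rfl⟩
  exact tU_mem_SUG hB ha hc

theorem TG_le_UG : TG hB ≤ UG h := fun g hg => (TG_le hB hg).1

/-- `TG` is normal in the group of the isometries -/
theorem TG_conj {g : V ≃ₗ[K] V} (hg : g ∈ UG h) {t : V ≃ₗ[K] V} (ht : t ∈ TG hB) :
    g * t * g⁻¹ ∈ TG hB := by
  unfold TG at ht
  induction ht using closure_induction with
  | mem t ht =>
    obtain ⟨a, ha, c, hc, rfl⟩ := ht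
    rw [tU_conj hB hg]
    exact tU_mem_TG hB _ hc
  | one => rw [mul_one, mul_inv_cancel]; exact Subgroup.one_mem _
  | mul x y _ _ hx hy =>
    have : g * (x * y) * g⁻¹ = (g * x * g⁻¹) * (g * y * g⁻¹) := by group
    rw [this]
    exact Subgroup.mul_mem _ hx hy
  | inv x _ hx =>
    have : g * x⁻¹ * g⁻¹ = (g * x * g⁻¹)⁻¹ := by group
    rw [this]
    exact Subgroup.inv_mem _ hx

/-- the transvection which maps `v` to `w` -/
theorem exists_move' {v w : V} (hvw : h v v = h w w) (htr : h v w + h w v = h v v + h w w)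
    (hne : h v (w - v) ≠ 0) : ∃ t ∈ TG hB, t v = w ∧ ∀ x, h x v = 0 → h x w = 0 → t x = x := by
  have ha : h (w - v) (w - v) = 0 := by
    rw [hB.subl, hB.subr, hB.subr]
    linear_combination -htr
  have hc : (h v (w - v))⁻¹ + θ (h v (w - v))⁻¹ = 0 := by
    have h1 : θ (h v (w - v)) = - h v (w - v) := by
      rw [← hB.herm, hB.subl, hB.subr]
      linear_combination htr - hvw
    rw [map_inv₀, h1, inv_neg, add_neg_cancel]
  refine ⟨_, tU_mem_TG hB ha hc, ?_, fun x h1 h2 => ?_⟩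
  · rw [tU_apply, inv_mul_cancel₀ hne, one_smul, add_sub_cancel]
  · rw [tU_apply, hB.subr x w v, h1, h2, sub_zero, mul_zero, zero_smul, add_zero]

theorem exists_move {v w : V} (hvw : h v v = h w w) (htr : h v w + h w v = h v v + h w w)
    (hne : h v (w - v) ≠ 0) : ∃ t ∈ TG hB, t v = w := by
  obtain ⟨t, h1, h2, -⟩ := exists_move' hB hvw htr hne
  exact ⟨t, h1, h2⟩

theorem exists_move_iso' {v w : V} (hv : h v v = 0) (hw : h w w = 0) {d : K} (hd : d ≠ 0)
    (hd' : θ d = -d) (hvw : h v w = d) :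
    ∃ t ∈ TG hB, t v = w ∧ ∀ x, h x v = 0 → h x w = 0 → t x = x := by
  refine exists_move' hB (by rw [hv, hw]) ?_ ?_
  · rw [hB.herm v w, hvw, hd', hv, hw, add_neg_cancel, add_zero]
  · rw [hB.subr, hv, sub_zero, hvw]
    exact hd

theorem exists_move_iso {v w : V} (hv : h v v = 0) (hw : h w w = 0) {d : K} (hd : d ≠ 0)
    (hd' : θ d = -d) (hvw : h v w = d) : ∃ t ∈ TG hB, t v = w := by
  obtain ⟨t, h1, h2, -⟩ := exists_move_iso' hB hv hw hd hd' hvw
  exact ⟨t, h1, h2⟩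

end Basic

section Iso

variable {K V : Type*} [Field K] [AddCommGroup V] [Module K V] {θ : K ≃+* K} (hθ : Iv θ)
  {h : V → V → K} (hB : Hm θ h)

include hB hθ

/-- hyperbolic pairs -/
theorem exists_pair {v : V} (hv0 : v ≠ 0) (hv : h v v = 0) : ∃ y, h y y = 0 ∧ h v y = 1 := by
  obtain ⟨y, hy⟩ := hB.exists_one hv0
  obtain ⟨s, hs⟩ := exists_tr hθ (a := - h y y) (by rw [map_neg, hB.fix])
  refine ⟨y + s • v, ?_, ?_⟩
  · rw [hB.addl, hB.addr, hB.addr, hB.sml, hB.sml, hB.smr, hB.smr, hv, hB.herm v y, hy, map_one]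
    linear_combination hs
  · rw [hB.addr, hB.smr, hv, hy, mul_zero, add_zero]

theorem exists_aniso (hV : ∃ v : V, v ≠ 0) : ∃ v : V, h v v ≠ 0 := by
  by_contra hcon
  push Not at hcon
  obtain ⟨v, hv⟩ := hV
  obtain ⟨w, hw⟩ := hB.exists_one hv
  have h1 : ∀ c : K, c + θ c = 0 := by
    intro c
    have h2 := hcon (c • v + w)
    rw [hB.addl, hB.addr, hB.addr, hcon w, hcon (c • v), hB.sml, hB.smr, hw, hB.herm v w, hw,
      map_one] at h2
    linear_combination h2
  obtain ⟨t, ht⟩ := exists_tr_one hθ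
  rw [h1] at ht
  exact zero_ne_one ht

theorem line_trans_aux {v w : V} (hv : h v v = 0) (hw : h w w = 0) (hvw : h v w ≠ 0) :
    ∃ t ∈ TG hB, ∃ l : K, l ≠ 0 ∧ t v = l • w := by
  obtain ⟨d, hd, hd'⟩ := exists_dl hθ
  obtain ⟨l, hl⟩ : ∃ l, l = θ.symm (d / h v w) := ⟨_, rfl⟩
  have hl0 : l ≠ 0 := by
    rw [hl]
    exact (map_ne_zero θ.symm).mpr (div_ne_zero hd hvw)
  obtain ⟨t, ht, htv⟩ := exists_move_iso hB hv (smul_iso hB hw l) hd hd' (by
    rw [hB.smr, hl, θ.apply_symm_apply, div_mul_cancel₀ _ hvw])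
  exact ⟨t, ht, l, hl0, htv⟩

variable [Finite K]

/-- Transitivity on isotropic lines. -/
theorem line_trans {v w : V} (hv0 : v ≠ 0) (hw0 : w ≠ 0) (hv : h v v = 0) (hw : h w w = 0) :
    ∃ t ∈ TG hB, ∃ l : K, l ≠ 0 ∧ t v = l • w := by
  by_cases hvw : h v w = 0
  · obtain ⟨y', hy'⟩ := exists_avoid' (n := 2) (V := V) (K := K) (by
      have h1 := card_sq hθ
      have h2 : 1 < Nat.card (FF θ) := Finite.one_lt_card
      nlinarith) ![hl hB v, hl hB w] (by
      intro i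
      fin_cases i
      · exact hl_ne hB hv0
      · exact hl_ne hB hw0)
    have h1 : h y' v ≠ 0 := hy' 0
    have h2 : h y' w ≠ 0 := hy' 1
    have h1' := hB.swap_ne h1
    obtain ⟨s, hs⟩ := exists_tr hθ (a := - h y' y') (by rw [map_neg, hB.fix])
    -- an isotropic vector
    obtain ⟨y, hy⟩ : ∃ y, y = y' + (s / h v y') • v := ⟨_, rfl⟩
    have hyy : h y y = 0 := by
      rw [hy, hB.addl, hB.addr, hB.addr, hB.sml, hB.sml, hB.smr, hB.smr, hv, hB.herm v y',
        map_div₀]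
      have h3 : θ (h v y') ≠ 0 := (map_ne_zero θ).mpr h1'
      have h4 : s / h v y' * h v y' = s := div_mul_cancel₀ _ h1'
      have h5 : θ s / θ (h v y') * θ (h v y') = θ s := div_mul_cancel₀ _ h3
      linear_combination hs + h4 + h5
    have hvy : h v y ≠ 0 := by
      rw [hy, hB.addr, hB.smr, hv, mul_zero, add_zero]
      exact h1'
    have hyw : h y w ≠ 0 := by
      rw [hy, hB.addl, hB.sml, hvw, mul_zero, add_zero]
      exact h2
    obtain ⟨t, ht, l, hl0, htv⟩ := line_trans_aux hθ hB hv hyy hvy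
    obtain ⟨t', ht', l', hl0', htv'⟩ := line_trans_aux hθ hB hyy hw hyw
    refine ⟨t' * t, Subgroup.mul_mem _ ht' ht, l * l', mul_ne_zero hl0 hl0', ?_⟩
    rw [LinearEquiv.mul_apply, htv, map_smul, htv', smul_smul]
  · exact line_trans_aux hθ hB hv hw hvw

omit [Finite K] in
/-- scalars of the fixed field -/
theorem trans_fix' {v y : V} (hv : h v v = 0) (hy : h y y = 0) (hvy : h v y = 1) {l : K}
    (hl0 : l ≠ 0) (hl : θ l = l) :
    ∃ t ∈ TG hB, t v = l • v ∧ ∀ x, h x v = 0 → h x y = 0 → t x = x := by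
  obtain ⟨d, hd, hd'⟩ := exists_dl hθ
  obtain ⟨t, ht, htv, htx⟩ := exists_move_iso' hB hv (smul_iso hB hy (-d)) hd hd' (by
    rw [hB.smr, hvy, map_neg, hd', neg_neg, mul_one])
  obtain ⟨t', ht', htv', htx'⟩ := exists_move_iso' hB (smul_iso hB hy (-d)) (smul_iso hB hv l)
    (d := -(l * d)) (neg_ne_zero.mpr (mul_ne_zero hl0 hd)) (by
      rw [map_neg, map_mul, hl, hd']
      ring) (by
      rw [hB.sml, hB.smr, hB.herm v y, hvy, map_one, hl]
      ring)
  refine ⟨t' * t, Subgroup.mul_mem _ ht' ht, ?_, fun x h1 h2 => ?_⟩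
  · rw [LinearEquiv.mul_apply, htv, htv']
  · have e1 : h x (-d • y) = 0 := by rw [hB.smr, h2, mul_zero]
    have e2 : h x (l • v) = 0 := by rw [hB.smr, h1, mul_zero]
    rw [LinearEquiv.mul_apply, htx x h1 e1, htx' x e1 e2]

omit [Finite K] in
theorem trans_fix {v : V} (hv0 : v ≠ 0) (hv : h v v = 0) {l : K} (hl0 : l ≠ 0) (hl : θ l = l) :
    ∃ t ∈ TG hB, t v = l • v := by
  obtain ⟨y, hy, hvy⟩ := exists_pair hθ hB hv0 hv
  obtain ⟨t, h1, h2, -⟩ := trans_fix' hθ hB hv hy hvy hl0 hl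
  exact ⟨t, h1, h2⟩

/-- all scalars, dimension at least three -/
theorem trans_scalar {o o' w : V} (ho : h o o = 0) (ho' : h o' o' = 0) (hoo : h o o' = 1)
    (hw1 : h o w = 0) (hw2 : h o' w = 0) (hw : h w w ≠ 0) {l : K} (hl0 : l ≠ 0) :
    ∃ t ∈ TG hB, t o = l • o := by
  obtain ⟨d, hd, hd'⟩ := exists_dl hθ
  have hoo' : h o' o = 1 := by rw [hB.herm o o', hoo, map_one]
  have hw1' := hB.swap hw1
  have hw2' := hB.swap hw2
  have hθl : θ l ≠ 0 := (map_ne_zero θ).mpr hl0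
  obtain ⟨x, hx⟩ := exists_nm hθ (a := (l * d + θ (l * d)) / h w w) (by
    rw [map_div₀, hB.fix, tr_fix hθ])
  have hx' : x * θ x * h w w = l * d - d * θ l := by
    rw [hx, div_mul_cancel₀ _ hw, map_mul, hd']
    ring
  obtain ⟨y, hy⟩ : ∃ y, y = l • o + x • w + d • o' := ⟨_, rfl⟩
  obtain ⟨z, hz⟩ : ∃ z, z = (d / θ l) • o' := ⟨_, rfl⟩
  have hyy : h y y = 0 := by
    rw [hy]
    simp only [hB.addl, hB.addr, hB.sml, hB.smr, ho, ho', hoo, hoo', hw1, hw2, hw1', hw2']
    rw [hd']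
    linear_combination hx'
  have hzz : h z z = 0 := by rw [hz]; exact smul_iso hB ho' _
  have hoy : h o y = -d := by
    rw [hy]
    simp only [hB.addl, hB.addr, hB.sml, hB.smr, ho, ho', hoo, hoo', hw1, hw2, hw1', hw2']
    rw [hd']
    ring
  have hyz : h y z = -d := by
    rw [hy, hz]
    simp only [hB.addl, hB.addr, hB.sml, hB.smr, ho, ho', hoo, hoo', hw1, hw2, hw1', hw2',
      map_div₀]
    rw [hd', hθ.inv]
    field_simp
    ring
  have hzo : h z (l • o) = d := by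
    rw [hz, hB.sml, hB.smr, hoo']
    field_simp
  have hnd : θ (-d) = - -d := by rw [map_neg, hd']
  obtain ⟨t, ht, htv⟩ := exists_move_iso hB ho hyy (neg_ne_zero.mpr hd) hnd hoy
  obtain ⟨t', ht', htv'⟩ := exists_move_iso hB hyy hzz (neg_ne_zero.mpr hd) hnd hyz
  obtain ⟨t'', ht'', htv''⟩ := exists_move_iso hB hzz (smul_iso hB ho l) hd hd' hzo
  refine ⟨t'' * t' * t, Subgroup.mul_mem _ (Subgroup.mul_mem _ ht'' ht') ht, ?_⟩
  rw [LinearEquiv.mul_apply, LinearEquiv.mul_apply, htv, htv', htv'']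

/-- isotropic vectors in dimension two -/
theorem exists_isotropic {v w : V} (hv : h v v ≠ 0) (hw : h w w ≠ 0) (hvw : h v w = 0) :
    ∃ t : K, t ≠ 0 ∧ h (v + t • w) (v + t • w) = 0 := by
  obtain ⟨t, ht0, ht⟩ := exists_nm_ne hθ (a := - h v v / h w w) (by
    rw [map_div₀, map_neg, hB.fix, hB.fix]) (div_ne_zero (neg_ne_zero.mpr hv) hw)
  refine ⟨t, ht0, ?_⟩
  rw [hB.addl, hB.addr, hB.addr, hB.sml, hB.sml, hB.smr, hB.smr, hvw, hB.swap hvw]
  have : t * θ t * h w w = - h v v := by rw [ht, div_mul_cancel₀ _ hw]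
  linear_combination this

end Iso

end Vale.Agent.P180.R2.H589.Un
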