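import Vale.Agent.P180.R2.H589.Un.Spl

/-!
P180: special unitary groups: generation by transvections, perfectness, classification of the
hermitian forms, transitivity on vectors of norm one.
-/

set_option linter.all false

namespace Vale.Agent.P180.R2.H589.Un

open Subgroup Module
open Vale.Agent.P180.R2.H589.Sch
open Vale.Agent.P180.R2.H589.Sp (oo oo_ne cj cj_apply cj_symm_apply)

section Rad

variable {K W : Type*} [Field K] [AddCommGroup W] [Module K W] {θ : K ≃+* K} (hθ : Iv θ)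
  {h : W → W → K} (hB : Hm θ h)

/-- the last vector -/
def o' (K W : Type*) [Field K] [AddCommGroup W] [Module K W] : K × W × K := (0, 0, 1)

theorem cond_of_mem {y : W} {c : K} (hg : qq hB y c ∈ UG (hyp θ h)) : c + θ c + h y y = 0 := by
  have h4 := hg (0, 0, 1) (0, 0, 1)
  rw [qq_apply, hyp_apply, hyp_apply] at h4
  simp only [map_one, map_zero, mul_one, one_mul, mul_zero, add_zero, zero_add, hB.zl, one_smul,
    sub_zero] at h4
  exact h4

include hB in
theorem exists_cond (hθ : Iv θ) (y : W) : ∃ c, c + θ c + h y y = 0 := by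
  obtain ⟨c, hc⟩ := exists_tr hθ (a := - h y y) (by rw [map_neg, hB.fix])
  exact ⟨c, by rw [hc, neg_add_cancel]⟩

include hθ

/-- Levi elements with a scalar of the fixed field -/
theorem lv_mem_TG_fix {μ : Kˣ} (hμ : θ (μ : K) = μ) :
    lv θ (1 : W ≃ₗ[K] W) μ ∈ TG (hyp_hm hθ hB) := by
  have hV := hyp_hm hθ hB
  have ho' : hyp θ h (o' K W) (o' K W) = 0 := by
    rw [hyp_apply]
    change (0 : K) * θ 1 + 1 * θ 0 + h 0 0 = 0
    rw [hB.zl, map_zero]
    ring
  have hoo : hyp θ h (oo K W) (o' K W) = 1 := by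
    rw [hyp_oo hB]
    exact map_one θ
  obtain ⟨t, ht, htv, htx⟩ := trans_fix' hθ hV (oo_iso hB) ho' hoo μ.ne_zero hμ
  have htS : t ∈ StU θ h := ⟨(TG_le hV ht).1, μ, htv⟩
  obtain ⟨y, c, hc, h1⟩ := exists_decomp hB hθ ⟨t, htS⟩
  have hlam : lam θ h ⟨t, htS⟩ = μ := by
    apply Units.ext
    rw [lam_val]
    change (t (oo K W)).1 = μ
    rw [htv]
    exact mul_one _
  have hfix : ∀ x : W, t (0, x, 0) = (0, x, 0) := by
    intro x
    apply htx
    · rw [hyp_apply]
      change (0 : K) * θ 0 + 0 * θ 1 + h x 0 = 0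
      rw [hB.zr]
      ring
    · rw [hyp_apply]
      change (0 : K) * θ 1 + 0 * θ 0 + h x 0 = 0
      rw [hB.zr]
      ring
  have hbl : bl hB ⟨t, htS⟩ = 1 := by
    apply Subtype.ext
    apply LinearEquiv.ext
    intro x
    rw [bl_apply]
    change (t (0, x, 0)).2.1 = x
    rw [hfix]
  rw [hlam, hbl] at h1
  change t = lv θ 1 μ * qq hB y c at h1
  have hy : y = 0 := by
    apply hB.nd
    intro x
    have h2 := hfix x
    rw [h1, LinearEquiv.mul_apply, qq_apply, lv_apply] at h2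
    have h3 := congrArg Prod.fst h2
    change (μ : K) * (0 - h x y + c * 0) = 0 at h3
    have h4 := (mul_eq_zero.mp h3).resolve_left μ.ne_zero
    apply hB.swap
    linear_combination -h4
  rw [hy, hB.zl, add_zero] at hc
  rw [hy, qq_tU hB hθ] at h1
  have h2 : lv θ (1 : W ≃ₗ[K] W) μ = t * (tU hV (oo_iso hB) c)⁻¹ := by rw [h1]; group
  rw [h2]
  exact Subgroup.mul_mem _ ht (Subgroup.inv_mem _ (tU_mem_TG hV _ hc))

theorem exists_fix_ne [Finite K] (hF : 2 < Nat.card (FF θ)) :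
    ∃ μ : Kˣ, θ (μ : K) = μ ∧ (μ : K) ≠ 1 := by
  have h1 : Nat.card (FF θ) = Nat.card (FF θ)ˣ + 1 := Nat.card_eq_card_units_add_one (FF θ)
  have h2 : 1 < Nat.card (FF θ)ˣ := by omega
  haveI := (Finite.one_lt_card_iff_nontrivial).mp h2
  obtain ⟨u, hu⟩ := exists_ne (1 : (FF θ)ˣ)
  refine ⟨Units.mk0 ((u : FF θ) : K) (fun h => u.ne_zero (Subtype.ext h)), FF_coe _, fun h => ?_⟩
  exact hu (Units.ext (Subtype.ext h))

theorem exists_fix_sq [Finite K] (hF : 3 < Nat.card (FF θ)) :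
    ∃ μ : Kˣ, θ (μ : K) = μ ∧ (μ : K) ^ 2 ≠ 1 := by
  obtain ⟨a, h0, h2⟩ := exists_sq_ne (F := FF θ) hF
  refine ⟨Units.mk0 (a : K) (fun h => h0 (Subtype.ext h)), FF_coe _, fun h => h2 ?_⟩
  exact Subtype.ext h

/-- The radical is generated by transvections. -/
theorem qq_mem_TG [Finite K] (hF : 2 < Nat.card (FF θ)) {y : W} {c : K}
    (hc : c + θ c + h y y = 0) : qq hB y c ∈ TG (hyp_hm hθ hB) := by
  have hV := hyp_hm hθ hB
  obtain ⟨μ, hμ, hμ1⟩ := exists_fix_ne hθ hF
  have hμ1' : (μ : K) - 1 ≠ 0 := sub_ne_zero.mpr hμ1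
  obtain ⟨y', hy'⟩ : ∃ y', y' = ((μ : K) - 1)⁻¹ • y := ⟨_, rfl⟩
  obtain ⟨c', hc'⟩ := exists_cond hB hθ y'
  have h1 := lv_mem_TG_fix hθ hB hμ (W := W)
  have h2 : lv θ 1 μ * (qq hB y' c' * (lv θ 1 μ)⁻¹ * (qq hB y' c')⁻¹) ∈ TG hV :=
    Subgroup.mul_mem _ h1 (TG_conj hV (qq_mem hB hc') (Subgroup.inv_mem _ h1))
  have h3 : lv θ 1 μ * (qq hB y' c' * (lv θ 1 μ)⁻¹ * (qq hB y' c')⁻¹) =
      (lv θ 1 μ * qq hB y' c' * (lv θ 1 μ)⁻¹) * (qq hB y' c')⁻¹ := by group
  rw [h3, lv_qq hB (Subgroup.one_mem _) hθ, qq_inv, qq_mul] at h2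
  have h4 : θ (μ : K) • (1 : W ≃ₗ[K] W) y' + -y' = y := by
    change θ (μ : K) • y' + -y' = y
    rw [hμ]
    have h5 : (μ : K) • y' + -y' = ((μ : K) - 1) • y' := by module
    rw [h5, hy', smul_smul, mul_inv_cancel₀ hμ1', one_smul]
  rw [h4] at h2
  obtain ⟨e, he⟩ : ∃ e, e = (μ : K) * θ (μ : K) * c' + (-c' - h y' y') -
      h (-y') (θ (μ : K) • (1 : W ≃ₗ[K] W) y') := ⟨_, rfl⟩
  rw [← he] at h2
  have h5 := cond_of_mem hB (TG_le hV h2).1
  have h6 : (c - e) + θ (c - e) = 0 := by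
    rw [map_sub]
    linear_combination hc - h5
  have h7 := Subgroup.mul_mem _ h2 (tU_mem_TG hV (oo_iso hB) h6)
  rw [← qq_tU hB hθ, qq_mul, hB.zl, add_zero, sub_zero, add_sub_cancel] at h7
  exact h7

theorem lv_mem_TG {m : W ≃ₗ[K] W} (hm : m ∈ TG hB) : lv θ m 1 ∈ TG (hyp_hm hθ hB) := by
  unfold TG at hm
  induction hm using closure_induction with
  | mem m hm =>
    obtain ⟨a, ha, c, hc, rfl⟩ := hm
    obtain ⟨ha', h1⟩ := lv_tU hB hθ ha c
    rw [h1]
    exact tU_mem_TG _ _ hc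
  | one => rw [lv_one]; exact Subgroup.one_mem _
  | mul m m' _ _ h h' =>
    have := Subgroup.mul_mem _ h h'
    rwa [lv_mul, one_mul] at this
  | inv m _ h =>
    have := Subgroup.inv_mem _ h
    rwa [lv_inv, inv_one] at this

end Rad

section Low

variable {K V : Type*} [Field K] [AddCommGroup V] [Module K V] [Module.Finite K V]

theorem scalar_dim_one (hd : finrank K V = 1) (g : V ≃ₗ[K] V) :
    ∀ v, g v = ((LinearEquiv.det g : Kˣ) : K) • v := by
  obtain ⟨e, he0, he⟩ := finrank_eq_one_iff'.mp hd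
  obtain ⟨c, hc⟩ := he (g e)
  have h1 : (g : V →ₗ[K] V) = c • LinearMap.id := by
    apply LinearMap.ext
    intro v
    obtain ⟨a, rfl⟩ := he v
    change g (a • e) = c • (a • e)
    rw [map_smul, ← hc, smul_comm]
  have h2 : ((LinearEquiv.det g : Kˣ) : K) = c := by
    rw [LinearEquiv.coe_det, h1, LinearMap.det_smul, LinearMap.det_id, hd, pow_one, mul_one]
  intro v
  rw [h2]
  exact congrArg (fun f : V →ₗ[K] V => f v) h1

theorem eq_one_of_dim (hd : finrank K V ≤ 1) {g : V ≃ₗ[K] V} (hg : LinearEquiv.det g = 1) :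
    g = 1 := by
  apply LinearEquiv.ext
  intro v
  by_cases h0 : finrank K V = 0
  · haveI : Subsingleton V := Module.finrank_zero_iff.mp h0
    exact Subsingleton.elim _ _
  · rw [scalar_dim_one (by omega) g v, hg, Units.val_one, one_smul]
    rfl

end Low

section Main

variable {K : Type} [Field K] [Finite K] {θ : K ≃+* K} (hθ : Iv θ)

include hθ

/-- **Special unitary groups are generated by the transvections.** -/
theorem SUG_eq_TG (hF : 2 < Nat.card (FF θ)) {V : Type} [AddCommGroup V] [Module K V]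
    [Module.Finite K V] {h : V → V → K} (hB : Hm θ h) : SUG h = TG hB := by
  refine le_antisymm ?_ (TG_le hB)
  haveI hp : Fact (ringChar K).Prime := ⟨CharP.char_is_prime K (ringChar K)⟩
  refine u_ind hθ (fun V _ _ h => ∀ hB : Hm θ h, SUG h ≤ TG hB) ?_ ?_ ?_ V h hB hB
  · intro V _ _ _ h hB hd hB' g hg
    rw [eq_one_of_dim hd hg.2]
    exact Subgroup.one_mem _
  · intro W _ _ _ h hB ih hV g hg
    have hg0 : g (oo K W) ≠ 0 := fun h => oo_ne (g.map_eq_zero_iff.mp h)
    obtain ⟨t, ht, l, hl0, htg⟩ := line_trans hθ hV hg0 (oo_ne (K := K) (W := W))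
      (UG_iso hV hg.1 (oo_iso hB)) (oo_iso hB)
    -- the eigenvalue can be removed
    have key : ∃ t' ∈ TG hV, t' (oo K W) = l • oo K W := by
      by_cases hW : finrank K W = 0
      · have h1 : t * g ∈ StU θ h :=
          ⟨Subgroup.mul_mem _ (TG_le_UG hV ht) hg.1, l, by rw [LinearEquiv.mul_apply, htg]⟩
        have h2 := det_St hB hθ (ringChar K) ⟨t * g, h1⟩
        have h3 : ((lam θ h ⟨t * g, h1⟩ : Kˣ) : K) = l := by
          rw [lam_val]
          change ((t * g) (oo K W)).1 = l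
          rw [LinearEquiv.mul_apply, htg]
          exact mul_one _
        have h4 : (bl hB ⟨t * g, h1⟩ : W ≃ₗ[K] W) = 1 := by
          haveI : Subsingleton W := Module.finrank_zero_iff.mp hW
          exact LinearEquiv.ext fun x => Subsingleton.elim _ _
        have h5 : LinearEquiv.det (t * g) = 1 := by
          rw [map_mul, (TG_le hV ht).2, hg.2, one_mul]
        change ((LinearEquiv.det (t * g) : Kˣ) : K) = _ at h2
        rw [h5, h3, h4, map_one, Units.val_one, mul_one] at h2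
        have h6 : θ l = l := by
          have h7 : θ l ≠ 0 := (map_ne_zero θ).mpr hl0
          field_simp at h2
          exact h2
        exact trans_fix hθ hV oo_ne (oo_iso hB) hl0 h6
      · obtain ⟨w, hw⟩ := exists_norm_one hθ hB (by omega)
        have ho' : hyp θ h (o' K W) (o' K W) = 0 := by
          rw [hyp_apply]
          change (0 : K) * θ 1 + 1 * θ 0 + h 0 0 = 0
          rw [hB.zl, map_zero]
          ring
        have hoo : hyp θ h (oo K W) (o' K W) = 1 := by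
          rw [hyp_oo hB]
          exact map_one θ
        refine trans_scalar hθ hV (oo_iso hB) ho' hoo (w := (0, w, 0)) ?_ ?_ ?_ hl0
        · rw [hyp_oo hB]
          exact map_zero θ
        · rw [hyp_apply]
          change (0 : K) * θ 0 + 1 * θ 0 + h 0 w = 0
          rw [hB.zl, map_zero]
          ring
        · rw [hyp_apply]
          change (0 : K) * θ 0 + 0 * θ 0 + h w w ≠ 0
          rw [hw]
          simp
    obtain ⟨t', ht', htl⟩ := key
    have h1 : t'⁻¹ * t * g ∈ SUG (hyp θ h) := Subgroup.mul_mem _ (Subgroup.mul_mem _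
      (Subgroup.inv_mem _ (TG_le hV ht')) (TG_le hV ht)) hg
    have h2 : (t'⁻¹ * t * g) (oo K W) = oo K W := by
      rw [LinearEquiv.mul_apply, LinearEquiv.mul_apply, htg, ← htl]
      exact t'.symm_apply_apply _
    have h3 : t'⁻¹ * t * g ∈ StU θ h := ⟨h1.1, 1, by rw [h2, one_smul]⟩
    have h4 : lam θ h ⟨_, h3⟩ = 1 := by
      apply Units.ext
      rw [lam_val]
      change ((t'⁻¹ * t * g) (oo K W)).1 = _
      rw [h2]
      rfl
    obtain ⟨y, c, hc, h5⟩ := exists_decomp hB hθ ⟨_, h3⟩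
    rw [h4] at h5
    change t'⁻¹ * t * g = _ at h5
    have h6 := det_St hB hθ (ringChar K) ⟨_, h3⟩
    change ((LinearEquiv.det (t'⁻¹ * t * g) : Kˣ) : K) = _ at h6
    rw [h1.2, h4, Units.val_one, map_one, inv_one, one_mul, one_mul] at h6
    have h7 : (bl hB ⟨_, h3⟩ : W ≃ₗ[K] W) ∈ SUG h := ⟨(bl hB ⟨_, h3⟩).2, Units.ext h6.symm⟩
    have h8 : t'⁻¹ * t * g ∈ TG hV := by
      rw [h5]
      exact Subgroup.mul_mem _ (lv_mem_TG hθ hB (ih hB h7)) (qq_mem_TG hθ hB hF hc)
    have h9 := Subgroup.mul_mem _ (Subgroup.mul_mem _ (Subgroup.inv_mem _ ht) ht') h8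
    have h10 : t⁻¹ * t' * (t'⁻¹ * t * g) = g := by group
    rwa [h10] at h9
  · intro V V' _ _ _ _ _ h h' e hB he ih hB' g hg
    have h1 : (cj e).symm g ∈ SUG h := by
      rw [← cj_mem_SUG he, MulEquiv.apply_symm_apply]
      exact hg
    have h2 := cj_TG he hB hB' (ih hB h1)
    rwa [MulEquiv.apply_symm_apply] at h2

open scoped commutatorElement in
/-- **Special unitary groups are perfect.** -/
theorem SUG_perfect (hF : 3 < Nat.card (FF θ)) {V : Type} [AddCommGroup V] [Module K V]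
    [Module.Finite K V] {h : V → V → K} (hB : Hm θ h) : ⁅SUG h, SUG h⁆ = SUG h := by
  refine le_antisymm ?_ ?_
  · rw [commutator_le]
    intro g hg k hk
    rw [commutatorElement_def]
    exact mul_mem (mul_mem (mul_mem hg hk) (inv_mem hg)) (inv_mem hk)
  nth_rewrite 1 [SUG_eq_TG hθ (by omega) hB]
  rw [TG, closure_le]
  rintro _ ⟨a, ha, c, hc, rfl⟩
  by_cases ha0 : a = 0
  · have : tU hB ha c = 1 := by
      apply LinearEquiv.ext
      intro x
      rw [tU_apply, ha0, smul_zero, add_zero]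
      rfl
    rw [this]
    exact Subgroup.one_mem _
  obtain ⟨μ, hμ, hμ2⟩ := exists_fix_sq hθ hF
  obtain ⟨g, hg, hga⟩ := trans_fix hθ hB ha0 ha μ.ne_zero hμ
  have h3 : (μ : K) ^ 2 - 1 ≠ 0 := sub_ne_zero.mpr hμ2
  have hc' : ((μ : K) ^ 2 - 1)⁻¹ * c + θ (((μ : K) ^ 2 - 1)⁻¹ * c) = 0 := by
    rw [map_mul, map_inv₀, map_sub, map_pow, map_one, hμ, ← mul_add, hc, mul_zero]
  have h5 : ∀ (b : V) (hb : h b b = 0), b = (μ : K) • a →
      tU hB hb (((μ : K) ^ 2 - 1)⁻¹ * c) = tU hB ha ((μ : K) * θ (μ : K) *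
        (((μ : K) ^ 2 - 1)⁻¹ * c)) := by
    intro b hb hba
    subst hba
    exact tU_smul hB ha _ _
  have h4 : tU hB ha c = ⁅g, tU hB ha (((μ : K) ^ 2 - 1)⁻¹ * c)⁆ := by
    rw [commutatorElement_def, tU_conj hB (TG_le hB hg).1, h5 _ _ hga, tU_inv, tU_add]
    congr 1
    rw [hμ]
    field_simp
    ring
  rw [h4]
  exact commutator_mem_commutator (TG_le hB hg) (tU_mem_SUG hB _ hc')

theorem SUG_perfect' (hF : 3 < Nat.card (FF θ)) {V : Type} [AddCommGroup V] [Module K V]
    [Module.Finite K V] {h : V → V → K} (hB : Hm θ h) : commutator (SUG h) = ⊤ := by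
  apply map_injective (SUG h).subtype_injective
  rw [map_subtype_commutator, SUG_perfect hθ hF hB, ← MonoidHom.range_eq_map, range_subtype]

/-- The determinant of an isometry has norm one. -/
theorem nm_det {V : Type} [AddCommGroup V] [Module K V] [Module.Finite K V] {h : V → V → K}
    (hB : Hm θ h) {g : V ≃ₗ[K] V} (hg : g ∈ UG h) :
    ((LinearEquiv.det g : Kˣ) : K) * θ ((LinearEquiv.det g : Kˣ) : K) = 1 := by
  haveI hp : Fact (ringChar K).Prime := ⟨CharP.char_is_prime K (ringChar K)⟩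
  refine u_ind hθ (fun V _ _ h => ∀ hB : Hm θ h, ∀ g ∈ UG h,
    ((LinearEquiv.det g : Kˣ) : K) * θ ((LinearEquiv.det g : Kˣ) : K) = 1) ?_ ?_ ?_ V h hB hB g hg
  · intro V _ _ _ h hB hd hB' g hg
    by_cases h0 : finrank K V = 0
    · haveI : Subsingleton V := Module.finrank_zero_iff.mp h0
      have h1 : g = 1 := LinearEquiv.ext fun x => Subsingleton.elim _ _
      rw [h1, map_one, Units.val_one, map_one, one_mul]
    · obtain ⟨v, hv⟩ := exists_norm_one hθ hB (by omega)
      have h1 := scalar_dim_one (by omega) g v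
      have h2 := mem_UG.mp hg v v
      rw [h1, hB.sml, hB.smr, hv, mul_one] at h2
      exact h2
  · intro W _ _ _ h hB ih hV g hg
    have hg0 : g (oo K W) ≠ 0 := fun h => oo_ne (g.map_eq_zero_iff.mp h)
    obtain ⟨t, ht, l, hl0, htg⟩ := line_trans hθ hV hg0 (oo_ne (K := K) (W := W))
      (UG_iso hV hg (oo_iso hB)) (oo_iso hB)
    have h1 : t * g ∈ StU θ h :=
      ⟨Subgroup.mul_mem _ (TG_le_UG hV ht) hg, l, by rw [LinearEquiv.mul_apply, htg]⟩
    have h2 := det_St hB hθ (ringChar K) ⟨t * g, h1⟩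
    change ((LinearEquiv.det (t * g) : Kˣ) : K) = _ at h2
    rw [map_mul, (TG_le hV ht).2, one_mul] at h2
    have h3 := ih hB _ (bl hB ⟨t * g, h1⟩).2
    have h4 : ((lam θ h ⟨t * g, h1⟩ : Kˣ) : K) ≠ 0 := Units.ne_zero _
    have h5 : θ ((lam θ h ⟨t * g, h1⟩ : Kˣ) : K) ≠ 0 := (map_ne_zero θ).mpr h4
    rw [h2, map_mul, map_mul, map_inv₀, hθ.inv]
    field_simp
    linear_combination h3
  · intro V V' _ _ _ _ _ h h' e hB he ih hB' g hg
    have h1 : (cj e).symm g ∈ UG h := by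
      rw [← cj_mem_UG he, MulEquiv.apply_symm_apply]
      exact hg
    have h2 := ih hB _ h1
    have h3 : LinearEquiv.det ((cj e).symm g) = LinearEquiv.det g := by
      have h4 : LinearEquiv.det (cj e ((cj e).symm g)) = LinearEquiv.det ((cj e).symm g) :=
        LinearEquiv.det_conj _ e
      rw [← h4, MulEquiv.apply_symm_apply]
    rwa [h3] at h2

/-- **Hermitian forms of the same dimension are isometric.** -/
theorem exists_isom : ∀ (n : ℕ) (V V' : Type) [AddCommGroup V] [Module K V] [AddCommGroup V']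
    [Module K V'] [Module.Finite K V] [Module.Finite K V'] (h : V → V → K) (h' : V' → V' → K),
    Hm θ h → Hm θ h' → finrank K V = n → finrank K V' = n →
    ∃ e : V ≃ₗ[K] V', ∀ x y, h' (e x) (e y) = h x y := by
  intro n
  induction n with
  | zero =>
    intro V V' _ _ _ _ _ _ h h' hB hB' hd hd'
    haveI : Subsingleton V := Module.finrank_zero_iff.mp hd
    haveI : Subsingleton V' := Module.finrank_zero_iff.mp hd'
    refine ⟨LinearEquiv.ofFinrankEq V V' (by rw [hd, hd']), fun x y => ?_⟩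
    rw [Subsingleton.elim x 0, hB.zl, map_zero, hB'.zl]
  | succ n ih =>
    intro V V' _ _ _ _ _ _ h h' hB hB' hd hd'
    obtain ⟨v, hv⟩ := exists_norm_one hθ hB (by omega)
    obtain ⟨v', hv'⟩ := exists_norm_one hθ hB' (by omega)
    have hv0 : h v v ≠ 0 := by rw [hv]; exact one_ne_zero
    have hv0' : h' v' v' ≠ 0 := by rw [hv']; exact one_ne_zero
    obtain ⟨e, he, hef⟩ := exists_dec hB (nd_line hB hv0)
    obtain ⟨e', he', hef'⟩ := exists_dec hB' (nd_line hB' hv0')
    have h1 := finrank_pp_line hB hv0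
    have h2 := finrank_pp_line hB' hv0'
    obtain ⟨ε, hε⟩ := ih _ _ _ _ (rs_hm hB (nd_pp hB (nd_line hB hv0)))
      (rs_hm hB' (nd_pp hB' (nd_line hB' hv0'))) (by omega) (by omega)
    have hvne : v ≠ 0 := by rintro rfl; exact hv0 (hB.zl _)
    have hvne' : v' ≠ 0 := by rintro rfl; exact hv0' (hB'.zl _)
    let ln1 : Submodule.span K {v} ≃ₗ[K] Submodule.span K {v'} :=
      (LinearEquiv.toSpanNonzeroSingleton K V v hvne).symm.trans
        (LinearEquiv.toSpanNonzeroSingleton K V' v' hvne')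
    have hln : ∀ (c : K) (hc : c • v ∈ Submodule.span K {v}),
        ((ln1 ⟨c • v, hc⟩ : Submodule.span K {v'}) : V') = c • v' := by
      intro c hc
      have h3 : (⟨c • v, hc⟩ : Submodule.span K {v}) =
          LinearEquiv.toSpanNonzeroSingleton K V v hvne c := rfl
      change ((LinearEquiv.toSpanNonzeroSingleton K V' v' hvne')
        ((LinearEquiv.toSpanNonzeroSingleton K V v hvne).symm ⟨c • v, hc⟩) : V') = c • v'
      rw [h3, LinearEquiv.symm_apply_apply]
      rfl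
    have hlf : ∀ a b : Submodule.span K {v}, h' (ln1 a) (ln1 b) = h a b := by
      rintro ⟨a, ha⟩ ⟨b, hb⟩
      obtain ⟨c, rfl⟩ := Submodule.mem_span_singleton.mp ha
      obtain ⟨d, rfl⟩ := Submodule.mem_span_singleton.mp hb
      rw [hln, hln, hB'.sml, hB'.smr, hv']
      change _ = h (c • v) (d • v)
      rw [hB.sml, hB.smr, hv]
    refine ⟨e.symm.trans ((LinearEquiv.prodCongr ln1 ε).trans e'), fun x y => ?_⟩
    obtain ⟨x, rfl⟩ := e.surjective x
    obtain ⟨y, rfl⟩ := e.surjective y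
    change h' (e' (LinearEquiv.prodCongr ln1 ε (e.symm (e x))))
      (e' (LinearEquiv.prodCongr ln1 ε (e.symm (e y)))) = h (e x) (e y)
    rw [e.symm_apply_apply, e.symm_apply_apply, hef', hef]
    change h' (ln1 x.1) (ln1 y.1) + rs h' _ (ε x.2) (ε y.2) = h x.1 y.1 + rs h _ x.2 y.2
    rw [hlf, hε]

end Main

end Vale.Agent.P180.R2.H589.Un
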