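import Vale.Agent.P180.R2.H589.Un.Frm
import Vale.Agent.P180.R2.H589.Sp.Chr

/-!
P180: hermitian forms: hyperbolic extensions, the stabiliser of an isotropic line.
-/

set_option linter.all false

namespace Vale.Agent.P180.R2.H589.Un

open Subgroup Module
open Vale.Agent.P180.R2.H589.Sch
open Vale.Agent.P180.R2.H589.Sp (oo oo_ne)

variable {K W : Type*} [Field K] [AddCommGroup W] [Module K W] {θ : K ≃+* K}

/-- the hyperbolic extension of a form -/
def hyp (θ : K ≃+* K) (h : W → W → K) (u v : K × W × K) : K :=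
  u.1 * θ v.2.2 + u.2.2 * θ v.1 + h u.2.1 v.2.1

theorem hyp_apply (h : W → W → K) (u v : K × W × K) :
    hyp θ h u v = u.1 * θ v.2.2 + u.2.2 * θ v.1 + h u.2.1 v.2.1 := rfl

variable {h : W → W → K} (hθ : Iv θ) (hB : Hm θ h)

include hB hθ in
theorem hyp_hm : Hm θ (hyp θ h) := by
  refine ⟨fun x y z => ?_, fun c x y => ?_, fun x y => ?_, fun x hx => ?_⟩
  · rw [hyp_apply, hyp_apply, hyp_apply]
    simp only [Prod.fst_add, Prod.snd_add, hB.addl]
    ring
  · rw [hyp_apply, hyp_apply]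
    simp only [Prod.smul_fst, Prod.smul_snd, hB.sml, smul_eq_mul]
    ring
  · rw [hyp_apply, hyp_apply, map_add, map_add, map_mul, map_mul, hθ.inv, hθ.inv, ← hB.herm]
    ring
  · have h1 : x.1 = 0 := by
      have := hx (0, 0, 1)
      rw [hyp_apply] at this
      simpa [hB.zr] using this
    have h2 : x.2.2 = 0 := by
      have := hx (1, 0, 0)
      rw [hyp_apply] at this
      simpa [hB.zr] using this
    have h3 : x.2.1 = 0 := by
      apply hB.nd
      intro y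
      have := hx (0, y, 0)
      rw [hyp_apply] at this
      simpa using this
    exact Prod.ext h1 (Prod.ext h3 h2)

include hB in
theorem oo_iso : hyp θ h (oo K W) (oo K W) = 0 := by
  rw [hyp_apply]
  change (1 : K) * θ 0 + 0 * θ 1 + h 0 0 = 0
  rw [hB.zl, map_zero]
  ring

include hB in
theorem hyp_oo (v : K × W × K) : hyp θ h (oo K W) v = θ v.2.2 := by
  rw [hyp_apply]
  change (1 : K) * θ v.2.2 + 0 * θ v.1 + h 0 v.2.1 = _
  rw [hB.zl]
  ring

/-- Levi elements -/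
def lv (θ : K ≃+* K) (m : W ≃ₗ[K] W) (l : Kˣ) : (K × W × K) ≃ₗ[K] (K × W × K) where
  toFun u := ((l : K) * u.1, m u.2.1, (θ (l : K))⁻¹ * u.2.2)
  map_add' := by
    intro u v
    simp only [Prod.fst_add, Prod.snd_add, map_add, mul_add]
    rfl
  map_smul' := by
    intro c u
    simp only [Prod.smul_fst, Prod.smul_snd, map_smul, smul_eq_mul, RingHom.id_apply]
    refine Prod.ext ?_ (Prod.ext rfl ?_)
    · change (l : K) * (c * u.1) = c * ((l : K) * u.1)
      ring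
    · change (θ (l : K))⁻¹ * (c * u.2.2) = c * ((θ (l : K))⁻¹ * u.2.2)
      ring
  invFun u := ((l : K)⁻¹ * u.1, m.symm u.2.1, θ (l : K) * u.2.2)
  left_inv := by
    intro u
    refine Prod.ext ?_ (Prod.ext ?_ ?_)
    · exact inv_mul_cancel_left₀ l.ne_zero u.1
    · exact m.symm_apply_apply u.2.1
    · exact mul_inv_cancel_left₀ ((map_ne_zero θ).mpr l.ne_zero) u.2.2
  right_inv := by
    intro u
    refine Prod.ext ?_ (Prod.ext ?_ ?_)
    · exact mul_inv_cancel_left₀ l.ne_zero u.1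
    · exact m.apply_symm_apply u.2.1
    · exact inv_mul_cancel_left₀ ((map_ne_zero θ).mpr l.ne_zero) u.2.2

theorem lv_apply (m : W ≃ₗ[K] W) (l : Kˣ) (u : K × W × K) :
    lv θ m l u = ((l : K) * u.1, m u.2.1, (θ (l : K))⁻¹ * u.2.2) := rfl

theorem lv_mul (m m' : W ≃ₗ[K] W) (l l' : Kˣ) :
    lv θ m l * lv θ m' l' = lv θ (m * m') (l * l') := by
  apply LinearEquiv.ext
  intro u
  rw [LinearEquiv.mul_apply, lv_apply, lv_apply, lv_apply]
  refine Prod.ext ?_ (Prod.ext rfl ?_)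
  · change (l : K) * ((l' : K) * u.1) = ((l * l' : Kˣ) : K) * u.1
    rw [Units.val_mul, mul_assoc]
  · change (θ (l : K))⁻¹ * ((θ (l' : K))⁻¹ * u.2.2) = (θ ((l * l' : Kˣ) : K))⁻¹ * u.2.2
    rw [Units.val_mul, map_mul, mul_inv, mul_assoc]

theorem lv_one : lv θ (1 : W ≃ₗ[K] W) 1 = 1 := by
  apply LinearEquiv.ext
  intro u
  rw [lv_apply, Units.val_one, map_one, inv_one, one_mul, one_mul]
  rfl

theorem lv_inv (m : W ≃ₗ[K] W) (l : Kˣ) : (lv θ m l)⁻¹ = lv θ m⁻¹ l⁻¹ := by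
  symm
  apply eq_inv_of_mul_eq_one_left
  rw [lv_mul, inv_mul_cancel, inv_mul_cancel, lv_one]

theorem lv_det [Module.Finite K W] (m : W ≃ₗ[K] W) (l : Kˣ) :
    ((LinearEquiv.det (lv θ m l) : Kˣ) : K) = l * (θ (l : K))⁻¹ * (LinearEquiv.det m : Kˣ) := by
  rw [LinearEquiv.coe_det, LinearEquiv.coe_det]
  have h1 : ((lv θ m l : (K × W × K) ≃ₗ[K] (K × W × K)) : (K × W × K) →ₗ[K] (K × W × K)) =
      LinearMap.prodMap (LinearMap.mulLeft K (l : K)) (LinearMap.prodMap (m : W →ₗ[K] W)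
        (LinearMap.mulLeft K (θ (l : K))⁻¹)) := by
    apply LinearMap.ext
    intro u
    rfl
  rw [h1, LinearMap.det_prodMap, LinearMap.det_prodMap, LinearMap.det_mulLeft,
    LinearMap.det_mulLeft]
  ring

/-- elements of the radical -/
def qq (hB : Hm θ h) (y : W) (c : K) : (K × W × K) ≃ₗ[K] (K × W × K) where
  toFun u := (u.1 - h u.2.1 y + c * u.2.2, u.2.1 + u.2.2 • y, u.2.2)
  map_add' := by
    intro u v
    simp only [Prod.fst_add, Prod.snd_add, hB.addl]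
    refine Prod.ext ?_ (Prod.ext ?_ rfl)
    · change u.1 + v.1 - (h u.2.1 y + h v.2.1 y) + c * (u.2.2 + v.2.2) =
        u.1 - h u.2.1 y + c * u.2.2 + (v.1 - h v.2.1 y + c * v.2.2)
      ring
    · change u.2.1 + v.2.1 + (u.2.2 + v.2.2) • y = u.2.1 + u.2.2 • y + (v.2.1 + v.2.2 • y)
      module
  map_smul' := by
    intro a u
    simp only [Prod.smul_fst, Prod.smul_snd, hB.sml, smul_eq_mul, RingHom.id_apply]
    refine Prod.ext ?_ (Prod.ext ?_ rfl)
    · change a * u.1 - a * h u.2.1 y + c * (a * u.2.2) = a * (u.1 - h u.2.1 y + c * u.2.2)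
      ring
    · change a • u.2.1 + (a * u.2.2) • y = a • (u.2.1 + u.2.2 • y)
      module
  invFun u := (u.1 + h (u.2.1 - u.2.2 • y) y - c * u.2.2, u.2.1 - u.2.2 • y, u.2.2)
  left_inv := by
    intro u
    refine Prod.ext ?_ (Prod.ext ?_ rfl)
    · change u.1 - h u.2.1 y + c * u.2.2 + h (u.2.1 + u.2.2 • y - u.2.2 • y) y - c * u.2.2 = u.1
      rw [add_sub_cancel_right]
      ring
    · change u.2.1 + u.2.2 • y - u.2.2 • y = u.2.1
      rw [add_sub_cancel_right]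
  right_inv := by
    intro u
    refine Prod.ext ?_ (Prod.ext ?_ rfl)
    · change u.1 + h (u.2.1 - u.2.2 • y) y - c * u.2.2 - h (u.2.1 - u.2.2 • y) y + c * u.2.2 = u.1
      ring
    · change u.2.1 - u.2.2 • y + u.2.2 • y = u.2.1
      rw [sub_add_cancel]

theorem qq_apply (y : W) (c : K) (u : K × W × K) :
    qq hB y c u = (u.1 - h u.2.1 y + c * u.2.2, u.2.1 + u.2.2 • y, u.2.2) := rfl

theorem qq_mem {y : W} {c : K} (hc : c + θ c + h y y = 0) : qq hB y c ∈ UG (hyp θ h) := by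
  intro u v
  rw [qq_apply, qq_apply, hyp_apply, hyp_apply]
  simp only [hB.addl, hB.addr, hB.sml, hB.smr, map_add, map_sub, map_mul]
  rw [← hB.herm v.2.1 y]
  linear_combination (u.2.2 * θ v.2.2) * hc

theorem qq_mul (y y' : W) (c c' : K) :
    qq hB y c * qq hB y' c' = qq hB (y + y') (c + c' - h y' y) := by
  apply LinearEquiv.ext
  intro u
  rw [LinearEquiv.mul_apply, qq_apply, qq_apply, qq_apply]
  refine Prod.ext ?_ (Prod.ext ?_ rfl)
  · simp only [hB.addl, hB.addr, hB.sml]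
    ring
  · change u.2.1 + u.2.2 • y' + u.2.2 • y = u.2.1 + u.2.2 • (y + y')
    module

theorem qq_zero : qq hB 0 0 = 1 := by
  apply LinearEquiv.ext
  intro u
  rw [qq_apply, hB.zr, smul_zero, add_zero, sub_zero, zero_mul, add_zero]
  rfl

theorem qq_inv (y : W) (c : K) : (qq hB y c)⁻¹ = qq hB (-y) (-c - h y y) := by
  symm
  apply eq_inv_of_mul_eq_one_left
  rw [qq_mul, hB.negr, neg_add_cancel]
  have : -c - h y y + c - -h y y = 0 := by ring
  rw [this, qq_zero]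

theorem qq_inj {y y' : W} {c c' : K} (he : qq hB y c = qq hB y' c') : y = y' ∧ c = c' := by
  have h1 := congrArg (fun g : (K × W × K) ≃ₗ[K] (K × W × K) => g (0, 0, 1)) he
  change qq hB y c (0, 0, 1) = qq hB y' c' (0, 0, 1) at h1
  rw [qq_apply, qq_apply] at h1
  have h2 := congrArg Prod.fst h1
  have h3 := congrArg (fun u : K × W × K => u.2.1) h1
  simp only [hB.zl, sub_zero, zero_add, one_smul, mul_one] at h2 h3
  exact ⟨h3, h2⟩

theorem lv_mem {m : W ≃ₗ[K] W} (hm : m ∈ UG h) (hθ : Iv θ) (l : Kˣ) :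
    lv θ m l ∈ UG (hyp θ h) := by
  intro u v
  rw [lv_apply, lv_apply, hyp_apply, hyp_apply, mem_UG.mp hm]
  change (l : K) * u.1 * θ ((θ (l : K))⁻¹ * v.2.2) + (θ (l : K))⁻¹ * u.2.2 * θ ((l : K) * v.1) +
    h u.2.1 v.2.1 = u.1 * θ v.2.2 + u.2.2 * θ v.1 + h u.2.1 v.2.1
  rw [map_mul, map_mul, map_inv₀, hθ.inv]
  have h1 := l.ne_zero
  have h2 : θ (l : K) ≠ 0 := (map_ne_zero θ).mpr h1
  field_simp

theorem lv_qq {m : W ≃ₗ[K] W} (hm : m ∈ UG h) (hθ : Iv θ) (l : Kˣ) (y : W) (c : K) :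
    lv θ m l * qq hB y c * (lv θ m l)⁻¹ =
      qq hB (θ (l : K) • m y) ((l : K) * θ (l : K) * c) := by
  have h1 := l.ne_zero
  have h2 : θ (l : K) ≠ 0 := (map_ne_zero θ).mpr h1
  rw [mul_inv_eq_iff_eq_mul]
  apply LinearEquiv.ext
  intro u
  rw [LinearEquiv.mul_apply, LinearEquiv.mul_apply, qq_apply, lv_apply, lv_apply, qq_apply]
  refine Prod.ext ?_ (Prod.ext ?_ rfl)
  · change (l : K) * (u.1 - h u.2.1 y + c * u.2.2) = (l : K) * u.1 -
      h (m u.2.1) (θ (l : K) • m y) + (l : K) * θ (l : K) * c * ((θ (l : K))⁻¹ * u.2.2)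
    rw [hB.smr, mem_UG.mp hm, hθ.inv]
    field_simp
  · change m (u.2.1 + u.2.2 • y) = m u.2.1 + ((θ (l : K))⁻¹ * u.2.2) • (θ (l : K) • m y)
    rw [map_add, map_smul, smul_smul]
    congr 2
    field_simp

theorem qq_pow (y : W) (c : K) (n : ℕ) : ∃ d, (qq hB y c) ^ n = qq hB ((n : K) • y) d := by
  induction n with
  | zero => exact ⟨0, by rw [pow_zero, Nat.cast_zero, zero_smul, qq_zero]⟩
  | succ n ih =>
    obtain ⟨d, hd⟩ := ih
    rw [pow_succ, hd, qq_mul]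
    refine ⟨d + c - h y ((n : K) • y), ?_⟩
    congr 1
    rw [Nat.cast_succ]
    module

theorem qq_zpow (c : K) (n : ℕ) : (qq hB 0 c) ^ n = qq hB 0 (n * c) := by
  induction n with
  | zero => rw [pow_zero, Nat.cast_zero, zero_mul, qq_zero]
  | succ n ih =>
    rw [pow_succ, ih, qq_mul, hB.zr, sub_zero, add_zero]
    congr 1
    rw [Nat.cast_succ]
    ring

theorem qq_pel {p : ℕ} [CharP K p] (y : W) (c : K) : Pel p (qq hB y c) := by
  obtain ⟨d, hd⟩ := qq_pow hB y c p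
  refine ⟨2, ?_⟩
  rw [pow_two, pow_mul, hd, CharP.cast_eq_zero, zero_smul, qq_zpow, CharP.cast_eq_zero, zero_mul,
    qq_zero]

/-- transvections with centre `oo` -/
theorem qq_tU (hθ : Iv θ) (c : K) : qq hB 0 c = tU (hyp_hm hθ hB) (oo_iso hB) c := by
  apply LinearEquiv.ext
  intro u
  have h1 : hyp θ h u (oo K W) = u.2.2 := by
    rw [(hyp_hm hθ hB).herm (oo K W) u, hyp_oo hB, hθ.inv]
  rw [qq_apply, tU_apply, h1, hB.zr]
  refine Prod.ext ?_ (Prod.ext ?_ ?_)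
  · change u.1 - 0 + c * u.2.2 = u.1 + (c * u.2.2) * 1
    ring
  · change u.2.1 + u.2.2 • (0 : W) = u.2.1 + (c * u.2.2) • (0 : W)
    rw [smul_zero, smul_zero]
  · change u.2.2 = u.2.2 + (c * u.2.2) * 0
    ring

/-- transvections of the smaller space -/
theorem lv_tU (hθ : Iv θ) {a : W} (ha : h a a = 0) (c : K) :
    ∃ ha' : hyp θ h (0, a, 0) (0, a, 0) = 0,
      lv θ (tU hB ha c) 1 = tU (hyp_hm hθ hB) ha' c := by
  have ha' : hyp θ h (0, a, 0) (0, a, 0) = 0 := by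
    rw [hyp_apply]
    change (0 : K) * θ 0 + 0 * θ 0 + h a a = 0
    rw [ha]
    ring
  refine ⟨ha', ?_⟩
  apply LinearEquiv.ext
  intro u
  have h1 : hyp θ h u (0, a, 0) = h u.2.1 a := by
    rw [hyp_apply]
    change u.1 * θ 0 + u.2.2 * θ 0 + h u.2.1 a = _
    rw [map_zero]
    ring
  rw [lv_apply, tU_apply, tU_apply, h1]
  refine Prod.ext ?_ (Prod.ext rfl ?_)
  · change ((1 : Kˣ) : K) * u.1 = u.1 + (c * h u.2.1 a) * 0
    rw [Units.val_one]
    ring
  · change (θ ((1 : Kˣ) : K))⁻¹ * u.2.2 = u.2.2 + (c * h u.2.1 a) * 0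
    rw [Units.val_one, map_one, inv_one]
    ring

section Stab

/-- the stabiliser of a line -/
def StU (θ : K ≃+* K) (h : W → W → K) : Subgroup ((K × W × K) ≃ₗ[K] (K × W × K)) where
  carrier := {g | g ∈ UG (hyp θ h) ∧ ∃ c : K, g (oo K W) = c • oo K W}
  one_mem' := ⟨Subgroup.one_mem _, 1, by rw [one_smul]; rfl⟩
  mul_mem' := by
    rintro g k ⟨hg, c, hc⟩ ⟨hk, d, hd⟩
    refine ⟨Subgroup.mul_mem _ hg hk, d * c, ?_⟩
    rw [LinearEquiv.mul_apply, hd, map_smul, hc, smul_smul]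
  inv_mem' := by
    rintro g ⟨hg, c, hc⟩
    refine ⟨Subgroup.inv_mem _ hg, c⁻¹, ?_⟩
    have h0 : c ≠ 0 := by
      rintro rfl
      rw [zero_smul] at hc
      exact oo_ne (g.map_eq_zero_iff.mp hc)
    apply g.injective
    have h1 : g (g⁻¹ (oo K W)) = oo K W := g.apply_symm_apply _
    rw [h1, map_smul, hc, smul_smul, inv_mul_cancel₀ h0, one_smul]

theorem mem_StU {g : (K × W × K) ≃ₗ[K] (K × W × K)} :
    g ∈ StU θ h ↔ g ∈ UG (hyp θ h) ∧ ∃ c : K, g (oo K W) = c • oo K W := Iff.rfl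

/-- the eigenvalue -/
def lamF (g : (K × W × K) ≃ₗ[K] (K × W × K)) : K := (g (oo K W)).1

theorem lamF_spec {g : (K × W × K) ≃ₗ[K] (K × W × K)} (hg : g ∈ StU θ h) :
    g (oo K W) = lamF g • oo K W := by
  obtain ⟨_, c, hc⟩ := hg
  have h1 : lamF g = c := by
    rw [lamF, hc]
    change c * 1 = c
    rw [mul_one]
  rw [h1, hc]

theorem lamF_mul {g k : (K × W × K) ≃ₗ[K] (K × W × K)} (hg : g ∈ StU θ h) (hk : k ∈ StU θ h) :
    lamF (g * k) = lamF g * lamF k := by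
  have h1 : (g * k) (oo K W) = (lamF g * lamF k) • oo K W := by
    rw [LinearEquiv.mul_apply, lamF_spec hk, map_smul, lamF_spec hg, smul_smul, mul_comm]
  rw [lamF, h1]
  change lamF g * lamF k * 1 = _
  rw [mul_one]

theorem lamF_one : lamF (1 : (K × W × K) ≃ₗ[K] (K × W × K)) = 1 := rfl

theorem lamF_ne {g : (K × W × K) ≃ₗ[K] (K × W × K)} (hg : g ∈ StU θ h) : lamF g ≠ 0 := by
  intro h0
  have h1 := lamF_spec hg
  rw [h0, zero_smul] at h1
  exact oo_ne (g.map_eq_zero_iff.mp h1)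

include hB in
theorem thd {g : (K × W × K) ≃ₗ[K] (K × W × K)} (hg : g ∈ StU θ h) (v : K × W × K) :
    lamF g * θ (g v).2.2 = θ v.2.2 := by
  have h1 := mem_UG.mp hg.1 (oo K W) v
  rw [lamF_spec hg, hyp_oo hB] at h1
  have h2 : hyp θ h (lamF g • oo K W) (g v) = lamF g * hyp θ h (oo K W) (g v) := by
    rw [hyp_apply, hyp_apply]
    simp only [Prod.smul_fst, Prod.smul_snd, hB.sml, smul_eq_mul]
    ring
  rw [h2, hyp_oo hB] at h1
  exact h1

include hB in
theorem thd_zero {g : (K × W × K) ≃ₗ[K] (K × W × K)} (hg : g ∈ StU θ h) {v : K × W × K}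
    (hv : v.2.2 = 0) : (g v).2.2 = 0 := by
  have h1 := thd hB hg v
  rw [hv, map_zero] at h1
  exact (map_eq_zero θ).mp ((mul_eq_zero.mp h1).resolve_left (lamF_ne hg))

/-- the block -/
def blF (g : (K × W × K) ≃ₗ[K] (K × W × K)) : W →ₗ[K] W :=
  (LinearMap.fst K W K).comp ((LinearMap.snd K K (W × K)).comp
    (g.toLinearMap.comp ((LinearMap.inr K K (W × K)).comp (LinearMap.inl K W K))))

theorem blF_apply (g : (K × W × K) ≃ₗ[K] (K × W × K)) (x : W) :
    blF g x = (g (0, x, 0)).2.1 := rfl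

theorem snd_of {g : (K × W × K) ≃ₗ[K] (K × W × K)} (hg : g ∈ StU θ h) (a : K) (x : W) :
    (g (a, x, 0)).2.1 = blF g x := by
  have h1 : ((a, x, 0) : K × W × K) = a • oo K W + (0, x, 0) := by
    refine Prod.ext ?_ (Prod.ext ?_ ?_)
    · change a = a * 1 + 0
      ring
    · change x = a • (0 : W) + x
      rw [smul_zero, zero_add]
    · change (0 : K) = a * 0 + 0
      ring
  rw [h1, map_add, map_smul, lamF_spec hg, smul_smul]
  change (a * lamF g) • (0 : W) + (g (0, x, 0)).2.1 = _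
  rw [smul_zero, zero_add]
  rfl

include hB in
theorem form_of {g : (K × W × K) ≃ₗ[K] (K × W × K)} (hg : g ∈ StU θ h) (x : W) :
    g (0, x, 0) = ((g (0, x, 0)).1, blF g x, 0) :=
  Prod.ext rfl (Prod.ext rfl (thd_zero hB hg rfl))

include hB in
theorem blF_mul {g k : (K × W × K) ≃ₗ[K] (K × W × K)} (hg : g ∈ StU θ h) (hk : k ∈ StU θ h)
    (x : W) : blF (g * k) x = blF g (blF k x) := by
  rw [blF_apply, LinearEquiv.mul_apply, form_of hB hk, snd_of hg]

theorem blF_one (x : W) : blF (1 : (K × W × K) ≃ₗ[K] (K × W × K)) x = x := rfl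

include hB in
theorem blF_iso {g : (K × W × K) ≃ₗ[K] (K × W × K)} (hg : g ∈ StU θ h) (x y : W) :
    h (blF g x) (blF g y) = h x y := by
  have h1 := mem_UG.mp hg.1 (0, x, 0) (0, y, 0)
  rw [form_of hB hg x, form_of hB hg y, hyp_apply, hyp_apply] at h1
  simp only [map_zero, mul_zero, zero_mul, zero_add] at h1
  exact h1

/-- the block -/
def bl (hB : Hm θ h) : StU θ h →* UG h where
  toFun g := ⟨LinearEquiv.ofLinear (blF (g : (K × W × K) ≃ₗ[K] (K × W × K)))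
      (blF ((g⁻¹ : StU θ h) : (K × W × K) ≃ₗ[K] (K × W × K)))
      (by
        ext x
        rw [LinearMap.comp_apply, ← blF_mul hB g.2 (g⁻¹).2]
        have : (g : (K × W × K) ≃ₗ[K] (K × W × K)) *
            ((g⁻¹ : StU θ h) : (K × W × K) ≃ₗ[K] (K × W × K)) = 1 := by
          rw [Subgroup.coe_inv, mul_inv_cancel]
        rw [this, blF_one]
        rfl)
      (by
        ext x
        rw [LinearMap.comp_apply, ← blF_mul hB (g⁻¹).2 g.2]
        have : ((g⁻¹ : StU θ h) : (K × W × K) ≃ₗ[K] (K × W × K)) *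
            (g : (K × W × K) ≃ₗ[K] (K × W × K)) = 1 := by
          rw [Subgroup.coe_inv, inv_mul_cancel]
        rw [this, blF_one]
        rfl), fun x y => blF_iso hB g.2 x y⟩
  map_one' := by
    apply Subtype.ext
    apply LinearEquiv.ext
    intro x
    rfl
  map_mul' := by
    intro g k
    apply Subtype.ext
    apply LinearEquiv.ext
    intro x
    exact blF_mul hB g.2 k.2 x

theorem bl_apply (g : StU θ h) (x : W) :
    ((bl hB g : UG h) : W ≃ₗ[K] W) x = ((g : (K × W × K) ≃ₗ[K] (K × W × K)) (0, x, 0)).2.1 := rfl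

/-- the eigenvalue -/
def lam (θ : K ≃+* K) (h : W → W → K) : StU θ h →* Kˣ where
  toFun g := Units.mk0 (lamF (g : (K × W × K) ≃ₗ[K] (K × W × K))) (lamF_ne g.2)
  map_one' := Units.ext (lamF_one (K := K) (W := W))
  map_mul' := fun g k => Units.ext (lamF_mul g.2 k.2)

theorem lam_val (g : StU θ h) :
    ((lam θ h g : Kˣ) : K) = ((g : (K × W × K) ≃ₗ[K] (K × W × K)) (oo K W)).1 := rfl

theorem lam_spec (g : StU θ h) :
    (g : (K × W × K) ≃ₗ[K] (K × W × K)) (oo K W) = (lam θ h g : K) • oo K W := lamF_spec g.2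

theorem lv_oo (m : W ≃ₗ[K] W) (l : Kˣ) : lv θ m l (oo K W) = (l : K) • oo K W := by
  rw [lv_apply]
  refine Prod.ext rfl (Prod.ext ?_ ?_)
  · change m 0 = (l : K) • (0 : W)
    rw [map_zero, smul_zero]
  · change (θ (l : K))⁻¹ * 0 = (l : K) * 0
    rw [mul_zero, mul_zero]

theorem lv_St {m : W ≃ₗ[K] W} (hm : m ∈ UG h) (hθ : Iv θ) (l : Kˣ) : lv θ m l ∈ StU θ h :=
  ⟨lv_mem hm hθ l, l, lv_oo m l⟩

theorem qq_oo (y : W) (c : K) : qq hB y c (oo K W) = oo K W := by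
  rw [qq_apply]
  refine Prod.ext ?_ (Prod.ext ?_ ?_)
  · change (1 : K) - h 0 y + c * 0 = 1
    rw [hB.zl]
    ring
  · change (0 : W) + (0 : K) • y = 0
    rw [zero_smul, zero_add]
  · rfl

theorem qq_St {y : W} {c : K} (hc : c + θ c + h y y = 0) : qq hB y c ∈ StU θ h :=
  ⟨qq_mem hB hc, 1, by rw [one_smul, qq_oo]⟩

theorem exists_qq {g : StU θ h} (h1 : bl hB g = 1) (h2 : lam θ h g = 1) :
    ∃ y c, c + θ c + h y y = 0 ∧ (g : (K × W × K) ≃ₗ[K] (K × W × K)) = qq hB y c := by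
  obtain ⟨y, hy⟩ : ∃ y, y = ((g : (K × W × K) ≃ₗ[K] (K × W × K)) (0, 0, 1)).2.1 := ⟨_, rfl⟩
  obtain ⟨c, hc⟩ : ∃ c, c = ((g : (K × W × K) ≃ₗ[K] (K × W × K)) (0, 0, 1)).1 := ⟨_, rfl⟩
  have hl : lamF (g : (K × W × K) ≃ₗ[K] (K × W × K)) = 1 := congrArg Units.val h2
  have e3 : (g : (K × W × K) ≃ₗ[K] (K × W × K)) (0, 0, 1) = (c, y, 1) := by
    refine Prod.ext hc.symm (Prod.ext hy.symm ?_)
    have := thd hB g.2 (0, 0, 1)
    rw [hl, one_mul, map_one] at this
    exact θ.injective (by rw [this, map_one])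
  have e1 : (g : (K × W × K) ≃ₗ[K] (K × W × K)) (oo K W) = oo K W := by
    rw [lamF_spec g.2, hl, one_smul]
  have hcc : c + θ c + h y y = 0 := by
    have h4 := mem_UG.mp g.2.1 (0, 0, 1) (0, 0, 1)
    rw [e3, hyp_apply, hyp_apply] at h4
    simp only [map_one, map_zero, mul_one, one_mul, mul_zero, add_zero, hB.zl] at h4
    exact h4
  have e2 : ∀ x : W, (g : (K × W × K) ≃ₗ[K] (K × W × K)) (0, x, 0) = (- h x y, x, 0) := by
    intro x
    have hb : blF (g : (K × W × K) ≃ₗ[K] (K × W × K)) x = x :=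
      congrArg (fun m : UG h => (m : W ≃ₗ[K] W) x) h1
    have h3 := form_of hB g.2 x
    rw [hb] at h3
    have h4 := mem_UG.mp g.2.1 (0, x, 0) (0, 0, 1)
    rw [h3, e3, hyp_apply, hyp_apply] at h4
    simp only [map_one, map_zero, mul_one, mul_zero, zero_mul, zero_add, add_zero, hB.zr] at h4
    rw [h3]
    refine Prod.ext ?_ rfl
    exact eq_neg_of_add_eq_zero_left h4
  refine ⟨y, c, hcc, LinearEquiv.ext fun u => ?_⟩
  have hu : u = u.1 • oo K W + ((0 : K), u.2.1, (0 : K)) + u.2.2 • ((0 : K), (0 : W), (1 : K)) := by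
    refine Prod.ext ?_ (Prod.ext ?_ ?_)
    · change u.1 = u.1 * 1 + 0 + u.2.2 * 0
      ring
    · change u.2.1 = u.1 • (0 : W) + u.2.1 + u.2.2 • (0 : W)
      rw [smul_zero, smul_zero, zero_add, add_zero]
    · change u.2.2 = u.1 * 0 + 0 + u.2.2 * 1
      ring
  nth_rewrite 1 [hu]
  rw [map_add, map_add, map_smul, map_smul, e1, e2, e3, qq_apply]
  refine Prod.ext ?_ (Prod.ext ?_ ?_)
  · change u.1 * 1 + (- h u.2.1 y) + u.2.2 * c = _
    ring
  · change u.1 • (0 : W) + u.2.1 + u.2.2 • y = _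
    rw [smul_zero, zero_add]
  · change u.1 * 0 + 0 + u.2.2 * 1 = u.2.2
    ring

theorem lam_lv {m : W ≃ₗ[K] W} (hm : m ∈ UG h) (hθ : Iv θ) (l : Kˣ) :
    lam θ h ⟨lv θ m l, lv_St hm hθ l⟩ = l := by
  apply Units.ext
  rw [lam_val]
  change (l : K) * 1 = l
  rw [mul_one]

/-- **The decomposition.** -/
theorem exists_decomp (hθ : Iv θ) (g : StU θ h) : ∃ y c, c + θ c + h y y = 0 ∧
    (g : (K × W × K) ≃ₗ[K] (K × W × K)) =
      lv θ (bl hB g : W ≃ₗ[K] W) (lam θ h g) * qq hB y c := by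
  obtain ⟨y, c, hc, h1⟩ := exists_qq hB (g := (⟨lv θ (bl hB g : W ≃ₗ[K] W) (lam θ h g),
    lv_St (bl hB g).2 hθ _⟩ : StU θ h)⁻¹ * g) (by
      rw [map_mul, map_inv, inv_mul_eq_one]
      rfl) (by
      rw [map_mul, map_inv, lam_lv (bl hB g).2 hθ, inv_mul_cancel])
  refine ⟨y, c, hc, ?_⟩
  rw [← h1, Subgroup.coe_mul, Subgroup.coe_inv]
  group

end Stab

section Det

variable [Finite K] {p : ℕ} [Fact p.Prime] [CharP K p]

omit [Finite K] in
theorem unit_pel {u : Kˣ} (hu : Pel p u) : u = 1 := by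
  obtain ⟨n, hn⟩ := hu
  apply Units.ext
  have h1 : (u : K) ^ p ^ n = 1 := by rw [← Units.val_pow_eq_pow_val, hn, Units.val_one]
  have h2 : ((u : K) - 1) ^ p ^ n = 0 := by rw [sub_pow_char_pow, h1, one_pow, sub_self]
  exact sub_eq_zero.mp (pow_eq_zero_iff (pow_ne_zero n (Fact.out : p.Prime).ne_zero) |>.mp h2)

omit [Finite K] in
theorem det_pel {V : Type*} [AddCommGroup V] [Module K V] {g : V ≃ₗ[K] V} (hg : Pel p g) :
    LinearEquiv.det g = 1 := unit_pel (p := p) (hg.map (LinearEquiv.det (R := K) (M := V)))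

include hB in
theorem det_St [Module.Finite K W] (hθ : Iv θ) (p : ℕ) [Fact p.Prime] [CharP K p] (g : StU θ h) :
    ((LinearEquiv.det (g : (K × W × K) ≃ₗ[K] (K × W × K)) : Kˣ) : K) =
      (lam θ h g : Kˣ) * (θ ((lam θ h g : Kˣ) : K))⁻¹ *
        (LinearEquiv.det (bl hB g : W ≃ₗ[K] W) : Kˣ) := by
  obtain ⟨y, c, hc, h1⟩ := exists_decomp hB hθ g
  nth_rewrite 1 [h1]
  rw [map_mul, det_pel (p := p) (qq_pel hB y c), mul_one, lv_det]

end Det

end Vale.Agent.P180.R2.H589.Un
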