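import Vale.Agent.P180.R2.H589.Un.Hyp
import Vale.Agent.P180.R2.H589.Sp.Gen

/-!
P180: hermitian forms: splittings and induction.
-/

set_option linter.all false

namespace Vale.Agent.P180.R2.H589.Un

open Subgroup Module
open Vale.Agent.P180.R2.H589.Sch
open Vale.Agent.P180.R2.H589.Sp (oo oo_ne cj cj_apply cj_symm_apply)

section Res

variable {K V : Type*} [Field K] [AddCommGroup V] [Module K V] {θ : K ≃+* K}

/-- the restricted form -/
def rs (h : V → V → K) (U : Submodule K V) (x y : U) : K := h x y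

/-- nondegenerate subspaces -/
def Nd (h : V → V → K) (U : Submodule K V) : Prop := ∀ x ∈ U, (∀ y ∈ U, h x y = 0) → x = 0

/-- the orthogonal space -/
def pp {h : V → V → K} (hB : Hm θ h) (U : Submodule K V) : Submodule K V where
  carrier := {x | ∀ y ∈ U, h x y = 0}
  zero_mem' := fun y _ => hB.zl y
  add_mem' := by
    intro a b ha hb y hy
    rw [hB.addl, ha y hy, hb y hy, add_zero]
  smul_mem' := by
    intro c a ha y hy
    rw [hB.sml, ha y hy, mul_zero]

variable {h : V → V → K} (hB : Hm θ h)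

theorem mem_pp {U : Submodule K V} {x : V} : x ∈ pp hB U ↔ ∀ y ∈ U, h x y = 0 := Iff.rfl

include hB in
theorem rs_hm {U : Submodule K V} (hU : Nd h U) : Hm θ (rs h U) := by
  refine ⟨fun x y z => hB.addl _ _ _, fun c x y => hB.sml _ _ _, fun x y => hB.herm _ _,
    fun x hx => ?_⟩
  exact Subtype.ext (hU x x.2 fun y hy => hx ⟨y, hy⟩)

/-- the orthogonal sum of two forms -/
def osum {V' : Type*} (h : V → V → K) (h' : V' → V' → K) (u v : V × V') : K :=
  h u.1 v.1 + h' u.2 v.2

theorem osum_hm {V' : Type*} [AddCommGroup V'] [Module K V'] {h' : V' → V' → K}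
    (hB : Hm θ h) (hB' : Hm θ h') : Hm θ (osum h h') := by
  refine ⟨fun x y z => ?_, fun c x y => ?_, fun x y => ?_, fun x hx => ?_⟩
  · change h (x.1 + y.1) z.1 + h' (x.2 + y.2) z.2 = h x.1 z.1 + h' x.2 z.2 +
      (h y.1 z.1 + h' y.2 z.2)
    rw [hB.addl, hB'.addl]
    ring
  · change h (c • x.1) y.1 + h' (c • x.2) y.2 = c * (h x.1 y.1 + h' x.2 y.2)
    rw [hB.sml, hB'.sml]
    ring
  · change h y.1 x.1 + h' y.2 x.2 = θ (h x.1 y.1 + h' x.2 y.2)
    rw [map_add, ← hB.herm, ← hB'.herm]
  · refine Prod.ext (hB.nd _ fun y => ?_) (hB'.nd _ fun y => ?_)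
    · have := hx (y, 0)
      change h x.1 y + h' x.2 0 = 0 at this
      rwa [hB'.zr, add_zero] at this
    · have := hx (0, y)
      change h x.1 0 + h' x.2 y = 0 at this
      rwa [hB.zr, zero_add] at this

include hB in
/-- projection onto nondegenerate subspaces -/
theorem exists_proj [Finite K] [Module.Finite K V] {U : Submodule K V} (hU : Nd h U) (v : V) :
    ∃ u ∈ U, ∀ y ∈ U, h (v - u) y = 0 := by
  haveI : Finite V := Module.finite_of_finite K
  haveI : Finite (Dual K U) := Module.finite_of_finite K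
  let Φ : U → Dual K U := fun u =>
    { toFun := fun y => h y u
      map_add' := fun x y => hB.addl _ _ _
      map_smul' := fun c x => hB.sml _ _ _ }
  have hΦ : ∀ u y, Φ u y = h y u := fun u y => rfl
  have hinj : Function.Injective Φ := by
    intro u u' huu
    have h1 : (u : V) - u' = 0 := by
      refine hU _ (U.sub_mem u.2 u'.2) fun y hy => ?_
      apply hB.swap
      rw [hB.subr]
      have := congrArg (fun φ : Dual K U => φ ⟨y, hy⟩) huu
      simp only [hΦ] at this
      rw [this, sub_self]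
    exact Subtype.ext (sub_eq_zero.mp h1)
  have hcard : Nat.card U = Nat.card (Dual K U) := by
    rw [Module.natCard_eq_pow_finrank (K := K) (V := U),
      Module.natCard_eq_pow_finrank (K := K) (V := Dual K U), Subspace.dual_finrank_eq]
  have hbij : Function.Bijective Φ :=
    (Nat.bijective_iff_injective_and_card Φ).mpr ⟨hinj, hcard⟩
  obtain ⟨u, hu⟩ := hbij.2
    { toFun := fun y => h y v
      map_add' := fun x y => hB.addl _ _ _
      map_smul' := fun c x => hB.sml _ _ _ }
  refine ⟨u, u.2, fun y hy => ?_⟩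
  have := congrArg (fun φ : Dual K U => φ ⟨y, hy⟩) hu
  change h y u = h y v at this
  apply hB.swap
  rw [hB.subr, this, sub_self]

variable [Finite K] [Module.Finite K V]

theorem nd_pp {U : Submodule K V} (hU : Nd h U) : Nd h (pp hB U) := by
  intro x hx hxy
  apply hB.nd
  intro v
  obtain ⟨u, hu, h1⟩ := exists_proj hB hU v
  have h2 : v - u ∈ pp hB U := h1
  have h3 : v = u + (v - u) := by abel
  rw [h3, hB.addr, hxy _ h2, hx u hu, add_zero]

theorem pp_pp {U : Submodule K V} (hU : Nd h U) : pp hB (pp hB U) = U := by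
  refine le_antisymm (fun x hx => ?_) (fun x hx y hy => hB.swap (hy x hx))
  obtain ⟨u, hu, h1⟩ := exists_proj hB hU x
  have h2 : x - u ∈ pp hB U := h1
  have h3 : x - u = 0 := by
    refine nd_pp hB hU _ h2 fun y hy => ?_
    rw [hB.subl, hx y hy, hB.swap (hy u hu), sub_zero]
  rw [sub_eq_zero.mp h3]
  exact hu

/-- the orthogonal decomposition -/
theorem exists_dec {U : Submodule K V} (hU : Nd h U) :
    ∃ e : (U × pp hB U) ≃ₗ[K] V, (∀ u, e u = (u.1 : V) + u.2) ∧
      ∀ u v, h (e u) (e v) = osum (rs h U) (rs h (pp hB U)) u v := by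
  let f : (U × pp hB U) →ₗ[K] V := LinearMap.coprod U.subtype (pp hB U).subtype
  have hf : ∀ u, f u = (u.1 : V) + u.2 := fun u => rfl
  have hform : ∀ u v, h (f u) (f v) = osum (rs h U) (rs h (pp hB U)) u v := by
    intro u v
    rw [hf, hf, hB.addl, hB.addr, hB.addr, u.2.2 v.1 v.1.2, hB.swap (v.2.2 u.1 u.1.2)]
    change h u.1 v.1 + 0 + (0 + h u.2 v.2) = h u.1 v.1 + h u.2 v.2
    ring
  have hinj : Function.Injective f := by
    rw [injective_iff_map_eq_zero]
    intro u hu
    apply (osum_hm (rs_hm hB hU) (rs_hm hB (nd_pp hB hU))).nd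
    intro v
    rw [← hform, hu, hB.zl]
  have hsurj : Function.Surjective f := by
    intro v
    obtain ⟨u, hu, h1⟩ := exists_proj hB hU v
    exact ⟨(⟨u, hu⟩, ⟨v - u, h1⟩), by rw [hf]; change u + (v - u) = v; abel⟩
  exact ⟨LinearEquiv.ofBijective f ⟨hinj, hsurj⟩, hf, hform⟩

theorem finrank_pp {U : Submodule K V} (hU : Nd h U) :
    finrank K U + finrank K (pp hB U) = finrank K V := by
  obtain ⟨e, -, -⟩ := exists_dec hB hU
  rw [← e.finrank_eq, Module.finrank_prod]

omit [Finite K] [Module.Finite K V] in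
include hB in
theorem nd_line {e : V} (he : h e e ≠ 0) : Nd h (Submodule.span K {e}) := by
  intro x hx hxy
  obtain ⟨c, rfl⟩ := Submodule.mem_span_singleton.mp hx
  have h1 := hxy e (Submodule.mem_span_singleton_self e)
  rw [hB.sml] at h1
  rw [(mul_eq_zero.mp h1).resolve_right he, zero_smul]

omit [Finite K] [Module.Finite K V] in
theorem mem_pp_line {e x : V} : x ∈ pp hB (Submodule.span K {e}) ↔ h x e = 0 := by
  constructor
  · intro hx
    exact hx e (Submodule.mem_span_singleton_self e)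
  · intro hx y hy
    obtain ⟨c, rfl⟩ := Submodule.mem_span_singleton.mp hy
    rw [hB.smr, hx, mul_zero]

theorem finrank_pp_line {e : V} (he : h e e ≠ 0) :
    finrank K (pp hB (Submodule.span K {e})) + 1 = finrank K V := by
  have h1 := finrank_pp hB (nd_line hB he)
  have h2 : finrank K (Submodule.span K {e}) = 1 := by
    refine finrank_span_singleton ?_
    rintro rfl
    exact he (hB.zl _)
  omega

end Res

section Iso

variable {K V : Type*} [Field K] [AddCommGroup V] [Module K V] {θ : K ≃+* K} (hθ : Iv θ)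
  {h : V → V → K} (hB : Hm θ h) [Finite K] [Module.Finite K V]

include hθ hB

omit hθ hB [Finite K] in
theorem exists_nz (hd : 1 ≤ finrank K V) : ∃ v : V, v ≠ 0 := by
  by_contra hcon
  push Not at hcon
  have h1 : Subsingleton V := ⟨fun x y => by rw [hcon x, hcon y]⟩
  have h2 := Module.finrank_zero_of_subsingleton (R := K) (M := V)
  omega

/-- vectors of norm one -/
theorem exists_norm_one (hd : 1 ≤ finrank K V) : ∃ v : V, h v v = 1 := by
  obtain ⟨v, hv⟩ := exists_aniso hθ hB (exists_nz (K := K) hd)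
  obtain ⟨x, hx⟩ := exists_nm hθ (a := (h v v)⁻¹) (by rw [map_inv₀, hB.fix])
  exact ⟨x • v, by rw [hB.sml, hB.smr, ← mul_assoc, hx, inv_mul_cancel₀ hv]⟩

theorem exists_iso_vec (hd : 2 ≤ finrank K V) : ∃ v : V, v ≠ 0 ∧ h v v = 0 := by
  obtain ⟨e, he⟩ := exists_norm_one hθ hB (by omega)
  have he0 : h e e ≠ 0 := by rw [he]; exact one_ne_zero
  have h1 := finrank_pp_line hB he0
  obtain ⟨w, hw⟩ := exists_norm_one hθ (rs_hm hB (nd_pp hB (nd_line hB he0))) (by omega)
  have hw' : h w w = 1 := hw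
  have hwe : h w e = 0 := (mem_pp_line hB).mp w.2
  obtain ⟨t, ht0, ht⟩ := exists_isotropic hθ hB he0 (by rw [hw']; exact one_ne_zero)
    (hB.swap hwe)
  refine ⟨e + t • (w : V), ?_, ht⟩
  intro h0
  have h2 : h (e + t • (w : V)) e = 1 := by
    rw [hB.addl, hB.sml, hwe, he, mul_zero, add_zero]
  rw [h0, hB.zl] at h2
  exact zero_ne_one h2

end Iso

section Split

variable {K V : Type*} [Field K] [AddCommGroup V] [Module K V] {θ : K ≃+* K} {h : V → V → K}
  (hB : Hm θ h) {o o' : V} (ho : h o o = 0) (ho' : h o' o' = 0) (h1 : h o o' = 1)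

include hB in
/-- the orthogonal space of a hyperbolic pair -/
def WW (hB : Hm θ h) (o o' : V) : Submodule K V where
  carrier := {x | h x o = 0 ∧ h x o' = 0}
  zero_mem' := ⟨hB.zl _, hB.zl _⟩
  add_mem' := by
    rintro x y ⟨h1, h2⟩ ⟨h3, h4⟩
    exact ⟨by rw [hB.addl, h1, h3, add_zero], by rw [hB.addl, h2, h4, add_zero]⟩
  smul_mem' := by
    rintro c x ⟨h1, h2⟩
    exact ⟨by rw [hB.sml, h1, mul_zero], by rw [hB.sml, h2, mul_zero]⟩

include ho ho' h1

theorem pr_mem (v : V) : v - h v o' • o - h v o • o' ∈ WW hB o o' := by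
  have h2 : h o' o = 1 := by rw [hB.herm o o', h1, map_one]
  constructor
  · rw [hB.subl, hB.subl, hB.sml, hB.sml, ho, h2]
    ring
  · rw [hB.subl, hB.subl, hB.sml, hB.sml, ho', h1]
    ring

/-- `V` is a hyperbolic extension. -/
def splitE : (K × WW hB o o' × K) ≃ₗ[K] V where
  toFun u := u.1 • o + (u.2.1 : V) + u.2.2 • o'
  map_add' := by
    intro u v
    simp only [Prod.fst_add, Prod.snd_add, Submodule.coe_add]
    module
  map_smul' := by
    intro c u
    simp only [Prod.smul_fst, Prod.smul_snd, Submodule.coe_smul, RingHom.id_apply, smul_eq_mul]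
    module
  invFun v := (h v o', ⟨v - h v o' • o - h v o • o', pr_mem hB ho ho' h1 v⟩, h v o)
  left_inv := by
    have h2 : h o' o = 1 := by rw [hB.herm o o', h1, map_one]
    rintro ⟨a, ⟨x, hx⟩, b⟩
    obtain ⟨hx1, hx2⟩ := hx
    have e1 : h (a • o + x + b • o') o' = a := by
      rw [hB.addl, hB.addl, hB.sml, hB.sml, h1, ho', hx2]
      ring
    have e2 : h (a • o + x + b • o') o = b := by
      rw [hB.addl, hB.addl, hB.sml, hB.sml, h2, ho, hx1]
      ring
    refine Prod.ext e1 (Prod.ext (Subtype.ext ?_) e2)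
    change a • o + x + b • o' - h (a • o + x + b • o') o' • o - h (a • o + x + b • o') o • o' = x
    rw [e1, e2]
    module
  right_inv := by
    intro v
    change h v o' • o + (v - h v o' • o - h v o • o') + h v o • o' = v
    module

theorem splitE_apply (u : K × WW hB o o' × K) :
    splitE hB ho ho' h1 u = u.1 • o + (u.2.1 : V) + u.2.2 • o' := rfl

theorem splitE_iso (u v : K × WW hB o o' × K) :
    h (splitE hB ho ho' h1 u) (splitE hB ho ho' h1 v) = hyp θ (rs h (WW hB o o')) u v := by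
  have h2 : h o' o = 1 := by rw [hB.herm o o', h1, map_one]
  obtain ⟨a, ⟨x, hx1, hx2⟩, b⟩ := u
  obtain ⟨a', ⟨x', hx1', hx2'⟩, b'⟩ := v
  rw [splitE_apply, splitE_apply, hyp_apply]
  simp only [hB.addl, hB.addr, hB.sml, hB.smr, rs]
  rw [ho, ho', h1, h2, hx1, hx2, hB.swap hx1', hB.swap hx2']
  ring

theorem WW_nd : Nd h (WW hB o o') := by
  intro x hx hxy
  apply hB.nd
  intro v
  obtain ⟨u, rfl⟩ := (splitE hB ho ho' h1).surjective v
  obtain ⟨a, y, b⟩ := u
  obtain ⟨hx1, hx2⟩ := hx
  rw [splitE_apply, hB.addr, hB.addr, hB.smr, hB.smr, hx1, hx2]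
  have h4 : h x y = 0 := hxy y y.2
  rw [h4]
  simp

end Split

/-- **Induction over the hermitian spaces.** -/
theorem u_ind {K : Type} [Field K] [Finite K] {θ : K ≃+* K} (hθ : Iv θ)
    (P : ∀ (V : Type) [AddCommGroup V] [Module K V], (V → V → K) → Prop)
    (h0 : ∀ (V : Type) [AddCommGroup V] [Module K V] [Module.Finite K V] (h : V → V → K),
      Hm θ h → finrank K V ≤ 1 → P V h)
    (hs : ∀ (W : Type) [AddCommGroup W] [Module K W] [Module.Finite K W] (h : W → W → K),
      Hm θ h → P W h → P (K × W × K) (hyp θ h))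
    (hi : ∀ (V V' : Type) [AddCommGroup V] [Module K V] [AddCommGroup V'] [Module K V']
      [Module.Finite K V] (h : V → V → K) (h' : V' → V' → K) (e : V ≃ₗ[K] V'),
      Hm θ h → (∀ x y, h' (e x) (e y) = h x y) → P V h → P V' h')
    (V : Type) [AddCommGroup V] [Module K V] [Module.Finite K V] (h : V → V → K)
    (hB : Hm θ h) : P V h := by
  have key : ∀ (n : ℕ) (V : Type) [AddCommGroup V] [Module K V] [Module.Finite K V]
      (h : V → V → K), Hm θ h → finrank K V ≤ n → P V h := by
    intro n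
    induction n with
    | zero =>
      intro V _ _ _ h hB hd
      exact h0 V h hB (by omega)
    | succ n ih =>
      intro V _ _ _ h hB hd
      by_cases hV : finrank K V ≤ 1
      · exact h0 V h hB hV
      · obtain ⟨o, ho0, ho⟩ := exists_iso_vec hθ hB (by omega)
        obtain ⟨o', ho', h1⟩ := exists_pair hθ hB ho0 ho
        have h2 : finrank K (WW hB o o') ≤ n := by
          have h3 := (splitE hB ho ho' h1).finrank_eq
          rw [Module.finrank_prod, Module.finrank_prod, Module.finrank_self] at h3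
          omega
        have hW := rs_hm hB (WW_nd hB ho ho' h1)
        exact hi _ V _ h (splitE hB ho ho' h1) (hyp_hm hθ hW) (splitE_iso hB ho ho' h1)
          (hs _ _ hW (ih _ _ hW h2))
  exact key _ V h hB le_rfl

section Cj

variable {K V V' : Type*} [Field K] [AddCommGroup V] [Module K V] [AddCommGroup V'] [Module K V']
  {θ : K ≃+* K} {h : V → V → K} {h' : V' → V' → K} {e : V ≃ₗ[K] V'}
  (he : ∀ x y, h' (e x) (e y) = h x y)

include he

theorem cj_mem_UG {g : V ≃ₗ[K] V} : cj e g ∈ UG h' ↔ g ∈ UG h := by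
  constructor
  · intro hg x y
    have h1 := hg (e x) (e y)
    rw [cj_apply, cj_apply, e.symm_apply_apply, e.symm_apply_apply, he, he] at h1
    exact h1
  · intro hg x y
    rw [cj_apply, cj_apply, he, hg]
    rw [← he, e.apply_symm_apply, e.apply_symm_apply]

theorem cj_mem_SUG {g : V ≃ₗ[K] V} : cj e g ∈ SUG h' ↔ g ∈ SUG h := by
  rw [mem_SUG, mem_SUG, cj_mem_UG he]
  have : LinearEquiv.det (cj e g) = LinearEquiv.det g := LinearEquiv.det_conj g e
  rw [this]

theorem cj_tU (hB : Hm θ h) (hB' : Hm θ h') {a : V} (ha : h a a = 0) (c : K) :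
    cj e (tU hB ha c) = tU hB' (by rw [he]; exact ha : h' (e a) (e a) = 0) c := by
  apply LinearEquiv.ext
  intro x
  obtain ⟨x, rfl⟩ := e.surjective x
  rw [cj_apply, tU_apply, tU_apply, e.symm_apply_apply, map_add, map_smul, he]

theorem hm_of_iso (hB : Hm θ h) : Hm θ h' := by
  refine ⟨fun x y z => ?_, fun c x y => ?_, fun x y => ?_, fun x hx => ?_⟩
  · obtain ⟨x, rfl⟩ := e.surjective x
    obtain ⟨y, rfl⟩ := e.surjective y
    obtain ⟨z, rfl⟩ := e.surjective z
    rw [← map_add, he, he, he, hB.addl]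
  · obtain ⟨x, rfl⟩ := e.surjective x
    obtain ⟨y, rfl⟩ := e.surjective y
    rw [← map_smul, he, he, hB.sml]
  · obtain ⟨x, rfl⟩ := e.surjective x
    obtain ⟨y, rfl⟩ := e.surjective y
    rw [he, he, hB.herm]
  · obtain ⟨x, rfl⟩ := e.surjective x
    have h1 : x = 0 := hB.nd x fun y => by rw [← he]; exact hx _
    rw [h1, map_zero]

theorem cj_TG (hB : Hm θ h) (hB' : Hm θ h') {g : V ≃ₗ[K] V} (hg : g ∈ TG hB) :
    cj e g ∈ TG hB' := by
  have h1 : TG hB ≤ (TG hB').comap (cj e).toMonoidHom := by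
    rw [TG, closure_le]
    rintro _ ⟨a, ha, c, hc, rfl⟩
    change cj e (tU hB ha c) ∈ TG hB'
    rw [cj_tU he hB hB']
    exact tU_mem_TG hB' _ hc
  exact h1 hg

end Cj

end Vale.Agent.P180.R2.H589.Un
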